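import Vale.Agent.P237.Main

/-!
The shadow bound: a projection-volume inequality in dimension `m + 1` bounds the volume of the
shadow of the projection body in dimension `m + 2` below by an integral over parallel slices.
-/

open MeasureTheory Set Filter Topology Real
open scoped RealInnerProductSpace Pointwise ENNReal NNReal

namespace Vale.Agent.P237

variable {m : ℕ}

/-- The integrand of the shadow bound is integrable. -/
lemma integrable_slice_rpow {K : Set (E (m + 2))} (hK : Body K) {ν : E (m + 2)} (F : Frame ν)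
    {p : ℝ} (hp : 0 < p) :
    Integrable fun t => (volume (F.slice K t)).toReal ^ p := by
  have hm : Measurable fun t => (volume (F.slice K t)).toReal ^ p :=
    (measurable_measure_prodMk_left
      (hK.cpt.measurableSet.preimage F.S.continuous.measurable)).ennreal_toReal.pow_const _
  obtain ⟨r, hr⟩ := (hK.cpt.image (continuous_fst.comp F.S.symm.continuous)).isBounded
    |>.subset_closedBall (0 : ℝ)
  have hz : ∀ t, t ∉ Metric.closedBall (0 : ℝ) r → (volume (F.slice K t)).toReal ^ p = 0 := by
    intro t ht
    have : F.slice K t = ∅ := eq_empty_iff_forall_notMem.2 fun y hy => ht (hr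
      ⟨F.S (t, y), hy, by simp⟩)
    simp [this, Real.zero_rpow hp.ne']
  refine (integrableOn_iff_integrable_of_support_subset (s := Metric.closedBall (0 : ℝ) r)
    fun t ht => by_contra fun h => ht (hz t h)).1 ?_
  refine Integrable.mono' (integrableOn_const (C := (volume (F.proj '' K)).toReal ^ p)
    (isCompact_closedBall _ _).measure_lt_top.ne) hm.aestronglyMeasurable
    (Eventually.of_forall fun t => ?_)
  rw [Real.norm_of_nonneg (Real.rpow_nonneg ENNReal.toReal_nonneg _)]
  exact Real.rpow_le_rpow ENNReal.toReal_nonneg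
    (ENNReal.toReal_mono (hK.cpt.image F.continuous_proj).measure_lt_top.ne
      (measure_mono fun y hy => ⟨_, hy, F.proj_S t y⟩)) hp.le

/-- The projection of the body with support function `p` has support function the restriction
of `p`. -/
lemma Sublin.proj_wulff {n : ℕ} {p : E (n + 1) → ℝ} (hp : Sublin p) {ν : E (n + 1)} (F : Frame ν) :
    F.proj '' wulff p = wulff fun y : E n => p (F.S (0, y)) := by
  refine Subset.antisymm ?_ fun y hy => ?_
  · rintro _ ⟨x, hx, rfl⟩ u
    rw [← F.inner_hyper]
    exact hx _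
  by_contra hyn
  have hconv : Convex ℝ (F.proj '' wulff p) :=
    hp.cen.conv.linear_image ((LinearMap.snd ℝ ℝ (E n)).comp F.S.symm.toLinearEquiv.toLinearMap)
  obtain ⟨f, u, hlt, hgt⟩ := geometric_hahn_banach_closed_point hconv
    (hp.cen.cpt.image F.continuous_proj).isClosed hyn
  set w := (InnerProductSpace.toDual ℝ (E n)).symm f
  have hw : ∀ z, ⟪w, z⟫ = f z := fun z => InnerProductSpace.toDual_symm_apply
  obtain ⟨x, hx, e⟩ := hp.exists_support (F.S (0, w))
  rw [F.inner_hyper] at e
  have h1 := hlt _ ⟨x, hx, rfl⟩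
  have h2 := hy w
  rw [← hw, real_inner_comm] at h1 hgt
  simp only [e] at h1
  simp only at h2
  linarith

/-- The projection function of `Π K` is the volume of the shadow. -/
lemma projVol_projBody {n : ℕ} {K : Set (E (n + 1))} (hK : Body K) (hi : (interior K).Nonempty)
    {ν : E (n + 1)} (F : Frame ν) :
    projVol (projBody K) ν = (volume (wulff fun y : E n => projVol K (F.S (0, y)))).toReal := by
  rw [← (sublin_projVol hK hi).proj_wulff F]
  have h := F.projVol_eq (projBody K) 1
  rwa [one_smul, abs_one, one_mul] at h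

/-- If `C |L|^m ≤ |Π L|` in dimension `m + 1`, the shadow of `Π K` along `ν` has volume at least
`C (∫ |K ∩ (tν + ν^⊥)|^(m/(m+1)) dt)^(m+1)`. -/
theorem shadow_int (hm : 1 ≤ m) {C : ℝ} (hC : 0 ≤ C)
    (hlow : ∀ L : Set (E (m + 1)), Body L → (interior L).Nonempty →
      C * (volume L).toReal ^ m ≤ (volume (projBody L)).toReal)
    {K : Set (E (m + 2))} (hK : Body K) (hi : (interior K).Nonempty)
    {ν : E (m + 2)} (F : Frame ν) :
    C * (∫ t, (volume (F.slice K t)).toReal ^ ((m : ℝ) / (m + 1))) ^ (m + 1) ≤
      projVol (projBody K) ν := by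
  rw [projVol_projBody hK hi F]
  obtain ⟨c, hc0, hc⟩ := exists_root (Nat.succ_ne_zero m) hC
  have hp : (0 : ℝ) < (m : ℝ) / (m + 1) := by
    have : (1 : ℝ) ≤ m := by exact_mod_cast hm
    positivity
  set g : ℝ → ℝ := fun t => (volume (F.slice K t)).toReal ^ ((m : ℝ) / (m + 1)) with hg
  have hg0 : ∀ t, 0 ≤ g t := fun t => Real.rpow_nonneg ENNReal.toReal_nonneg _
  have hgpow : ∀ t, g t ^ (m + 1) = (volume (F.slice K t)).toReal ^ m := fun t => by
    rw [hg, ← Real.rpow_natCast, ← Real.rpow_mul ENNReal.toReal_nonneg, Nat.cast_succ,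
      div_mul_cancel₀ _ (by positivity), Real.rpow_natCast]
  have hW := volume_wulff (sublin_hyper hK hi F)
    (measurable_slice_projVol F hK) (fun t v => projVol_nonneg _ v)
    (fun v => (projVol_slices F hK v).1) (fun v => (projVol_slices F hK v).2.le)
    ((integrable_slice_rpow hK F hp).const_mul c) (fun t => mul_nonneg hc0 (hg0 t)) ?_
  · rwa [integral_const_mul, mul_pow, hc] at hW
  intro t ht
  have hb := F.slice_body hK t
  have hi2 := hb.interior_of_pos fun h => by
    simp [h, Real.zero_rpow hp.ne'] at ht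
  have hs := sublin_projVol hb hi2
  refine ⟨hs.continuous, hs.cen.cpt, le_trans (le_of_eq ?_) (hlow _ hb hi2)⟩
  rw [mul_pow, hc, hgpow]

/-- In `ℝ³`: the shadow of `Π K` has area at least `4 (∫ √|slice|)²`. -/
theorem shadow_three {K : Set (E 3)} (hK : Body K) (hi : (interior K).Nonempty)
    {ν : E 3} (F : Frame ν) :
    4 * (∫ t, √((volume (F.slice K t)).toReal)) ^ 2 ≤ projVol (projBody K) ν := by
  have h := shadow_int (m := 1) le_rfl (by norm_num : (0 : ℝ) ≤ 4) (fun L hL hLi => by
    have := good 1 L hL hLi
    rw [show cst (1 + 1) = 4 by norm_num [cst]] at this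
    exact this) hK hi F
  simpa [Real.sqrt_eq_rpow, show ((1 : ℝ) + 1) = 2 by norm_num] using h

end Vale.Agent.P237
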