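import Vale.Agent.P237.Full.ProfileThree
import Vale.Agent.P237.Bridge
import Vale.Agent.P237.Kappa

/-!
# P237: Petty's projection inequality in space, in the statement notions
-/

open MeasureTheory Set Metric
open scoped RealInnerProductSpace Pointwise

namespace Vale.Agent.P237.Full

open Statement

lemma pettyConst_three : pettyConst 3 = 3 * Real.pi ^ 2 / 4 := by
  have h : ballVol 3 = 2 * Real.pi / (((0 : ℕ) : ℝ) + 3) * ballVol (0 + 1) := ballVol_rec 0
  rw [pettyConst, show (3 - 1 : ℕ) = 2 from rfl, show (3 - 2 : ℕ) = 1 from rfl, pow_one,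
    ballVol_two, h, ballVol_one]
  have := Real.pi_pos
  field_simp
  ring

theorem petty_space {K : Set (Space 3)} (hK : IsConvexBody K) :
    3 * Real.pi ^ 2 / 4 * vol K ^ 2 ≤ vol (projectionBody K) ∧
      (vol (projectionBody K) = 3 * Real.pi ^ 2 / 4 * vol K ^ 2 ↔
        ∃ (a : Space 3) (T : Space 3 →ₗ[ℝ] Space 3), Function.Injective T ∧
          K = (fun x => a + T x) '' closedBall 0 1) := by
  obtain ⟨hc, hk, hi⟩ := hK
  obtain ⟨h, heq⟩ := petty_three_of profileThree ⟨hc, hk⟩ hi
  have hV : 0 < (volume K).toReal := ENNReal.toReal_pos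
    ((isOpen_interior.measure_pos volume hi).trans_le (measure_mono interior_subset)).ne'
    hk.measure_lt_top.ne
  rw [projectionBody_eq, vol, vol]
  rw [ratio, show (3 - 1 : ℕ) = 2 from rfl] at h heq
  rw [le_div_iff₀ (pow_pos hV 2)] at h
  rw [div_eq_iff (pow_pos hV 2).ne'] at heq
  refine ⟨h, heq.trans (exists_congr fun a => exists_congr fun T => and_congr_right fun _ => ?_)⟩
  rw [← image_vadd, image_image]
  rfl

end Vale.Agent.P237.Full
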