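import Mathlib

/-!
A concave function above the unit quarter circle has, near each of its points, at least the area
between the two tangent segments and the circle.
-/

open MeasureTheory Set Real intervalIntegral

namespace Vale.Agent.P237

/-- The quarter circle. -/
noncomputable def semi (t : ℝ) : ℝ := √(1 - t ^ 2)

lemma semi_continuous : Continuous semi := by unfold semi; fun_prop

lemma semi_nonneg (t : ℝ) : 0 ≤ semi t := Real.sqrt_nonneg _

lemma integral_semi {a b : ℝ} (ha : -1 ≤ a) (hab : a ≤ b) (hb : b ≤ 1) :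
    ∫ x in a..b, semi x =
      ((b * semi b + arcsin b) - (a * semi a + arcsin a)) / 2 := by
  have h := integral_eq_sub_of_hasDerivAt_of_le hab
    (f := fun x => (x * semi x + arcsin x) / 2) (f' := semi)
    (((continuous_id.mul semi_continuous).add continuous_arcsin).div_const 2).continuousOn
    (fun x hx => ?_) (semi_continuous.intervalIntegrable _ _)
  · rw [h]; ring
  · have h1 : 0 < 1 - x ^ 2 := by nlinarith [hx.1, hx.2]
    have hs : √(1 - x ^ 2) ≠ 0 := (Real.sqrt_pos.2 h1).ne'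
    have d1 : HasDerivAt semi (-x / √(1 - x ^ 2)) x := by
      have := ((hasDerivAt_pow 2 x).const_sub 1).sqrt h1.ne'
      refine this.congr_deriv ?_
      field_simp
      ring
    refine ((((hasDerivAt_id x).mul d1).add (Real.hasDerivAt_arcsin (by linarith [hx.1])
      (by linarith [hx.2]))).div_const 2).congr_deriv ?_
    simp only [id_eq, semi]
    field_simp
    rw [Real.sq_sqrt h1.le]
    ring

lemma integral_semi_le {t : ℝ} (h0 : 0 ≤ t) (h1 : t ≤ 1) :
    ∫ x in (0 : ℝ)..t, semi x ≤ t - t ^ 3 / 6 := by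
  refine (integral_mono_on h0 (semi_continuous.intervalIntegrable _ _)
    (Continuous.intervalIntegrable (u := fun x : ℝ => 1 - x ^ 2 / 2) (by fun_prop) _ _) fun x hx => ?_).trans_eq ?_
  · refine Real.sqrt_le_iff.2 ⟨by nlinarith [hx.1, hx.2], by nlinarith [sq_nonneg (x ^ 2)]⟩
  · rw [integral_sub (Continuous.intervalIntegrable (by fun_prop) _ _)
      (Continuous.intervalIntegrable (by fun_prop) _ _), intervalIntegral.integral_div, integral_pow]
    simp
    ring

lemma arctan_gap {r : ℝ} (hr : 0 ≤ r) : 5 * r ^ 3 / (15 + 9 * r ^ 2) ≤ r - arctan r := by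
  have hd : ∀ x : ℝ, HasDerivAt (fun x => x - arctan x - 5 * x ^ 3 / (15 + 9 * x ^ 2))
      (1 - 1 / (1 + x ^ 2) - (15 * x ^ 2 * (15 + 9 * x ^ 2) - 5 * x ^ 3 * (18 * x)) /
        (15 + 9 * x ^ 2) ^ 2) x := fun x => by
    refine (((hasDerivAt_id x).sub (Real.hasDerivAt_arctan x)).sub ?_)
    refine (((hasDerivAt_pow 3 x).const_mul 5).div (((hasDerivAt_pow 2 x).const_mul 9).const_add 15)
      (by positivity)).congr_deriv ?_
    ring
  have hm : Monotone fun x => x - arctan x - 5 * x ^ 3 / (15 + 9 * x ^ 2) := by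
    refine monotone_of_deriv_nonneg (fun x => (hd x).differentiableAt) fun x => ?_
    rw [(hd x).deriv, sub_nonneg]
    rw [show 1 - 1 / (1 + x ^ 2) = x ^ 2 / (1 + x ^ 2) by field_simp; ring,
      div_le_div_iff₀ (by positivity) (by positivity)]
    nlinarith [mul_nonneg (sq_nonneg x) (sq_nonneg (x ^ 2))]
  have := hm hr
  simp only [arctan_zero] at this
  linarith

lemma integral_affine (a b p q : ℝ) (hab : a ≠ b) :
    ∫ x in a..b, (p + (x - a) / (b - a) * (q - p)) = (b - a) * (p + q) / 2 := by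
  have hne : b - a ≠ 0 := sub_ne_zero.2 (Ne.symm hab)
  rw [show (fun x => p + (x - a) / (b - a) * (q - p)) =
      fun x => (p - a * ((q - p) / (b - a))) + x * ((q - p) / (b - a)) by funext x; ring,
    integral_add (Continuous.intervalIntegrable (by fun_prop) _ _)
      (Continuous.intervalIntegrable (by fun_prop) _ _), intervalIntegral.integral_mul_const,
    intervalIntegral.integral_const, integral_id]
  simp only [smul_eq_mul]
  field_simp
  ring

lemma trapezoid_le {f : ℝ → ℝ} {a b p q : ℝ} (hab : a ≤ b) (hc : ConcaveOn ℝ (Icc a b) f)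
    (hi : IntervalIntegrable f volume a b) (hp : p ≤ f a) (hq : q ≤ f b) :
    (b - a) * (p + q) / 2 ≤ ∫ x in a..b, f x := by
  rcases hab.eq_or_lt with rfl | hab'
  · simp
  rw [← integral_affine a b p q hab'.ne]
  refine integral_mono_on hab (Continuous.intervalIntegrable (by fun_prop) _ _) hi fun x hx => ?_
  set s := (x - a) / (b - a) with hs
  have s0 : 0 ≤ s := div_nonneg (by linarith [hx.1]) (by linarith)
  have s1 : s ≤ 1 := (div_le_one (by linarith)).2 (by linarith [hx.2])
  have h := hc.2 (left_mem_Icc.2 hab) (right_mem_Icc.2 hab) (sub_nonneg.2 s1) s0 (by ring)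
  have hx' : (1 - s) * a + s * b = x := by
    have : s * (b - a) = x - a := div_mul_cancel₀ _ (by linarith)
    linarith
  simp only [smul_eq_mul, hx'] at h
  have h1 := mul_le_mul_of_nonneg_left hp (sub_nonneg.2 s1)
  have h2 := mul_le_mul_of_nonneg_left hq s0
  linarith

/-- The hypotheses on a profile. -/
structure Above (f : ℝ → ℝ) : Prop where
  concave : ConcaveOn ℝ (Icc 0 1) f
  anti : AntitoneOn f (Icc 0 1)
  le : ∀ t ∈ Icc (0 : ℝ) 1, semi t ≤ f t

variable {f : ℝ → ℝ}

lemma Above.integrable (hf : Above f) {a b : ℝ} (ha : 0 ≤ a) (hab : a ≤ b) (hb : b ≤ 1) :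
    IntervalIntegrable f volume a b :=
  AntitoneOn.intervalIntegrable (by
    rw [uIcc_of_le hab]; exact hf.anti.mono (Icc_subset_Icc ha hb))

lemma Above.excess_mono (hf : Above f) {a b c d : ℝ} (ha : 0 ≤ a) (hab : a ≤ b) (hbc : b ≤ c)
    (hcd : c ≤ d) (hd : d ≤ 1) :
    (∫ x in b..c, (f x - semi x)) ≤ ∫ x in a..d, (f x - semi x) := by
  refine integral_mono_interval hab hbc hcd ?_
    ((hf.integrable ha (hab.trans (hbc.trans hcd)) hd).sub (semi_continuous.intervalIntegrable _ _))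
  refine (ae_restrict_iff' measurableSet_Ioc).2 (Filter.Eventually.of_forall fun x hx => ?_)
  exact sub_nonneg.2 (hf.le x ⟨by linarith [hx.1], hx.2.trans hd⟩)

/-- The angular coordinates of a point above the circle, and its points of tangency. -/
lemma tangents {t y r : ℝ} (ht : t ∈ Icc (0 : ℝ) 1) (hy : semi t ≤ y) (hr : 0 ≤ r)
    (hr2 : r ^ 2 = t ^ 2 + y ^ 2 - 1) : ∃ φ : ℝ,
    sin φ = t / √(1 + r ^ 2) ∧ cos φ = y / √(1 + r ^ 2) ∧ 0 ≤ φ ∧
      φ + arctan r ≤ π / 2 ∧
      sin (φ + arctan r) = (t + r * y) / (1 + r ^ 2) ∧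
      semi ((t + r * y) / (1 + r ^ 2)) = (y - r * t) / (1 + r ^ 2) ∧
      sin (φ - arctan r) = (t - r * y) / (1 + r ^ 2) ∧
      (r * y ≤ t → semi ((t - r * y) / (1 + r ^ 2)) = (y + r * t) / (1 + r ^ 2)) ∧
      t ≤ (t + r * y) / (1 + r ^ 2) ∧ (t + r * y) / (1 + r ^ 2) ≤ 1 ∧
      (t - r * y) / (1 + r ^ 2) ≤ t := by
  set ρ := √(1 + r ^ 2) with hρ
  have ρ0 : 0 < ρ := Real.sqrt_pos.2 (by positivity)
  have ρ2 : ρ ^ 2 = 1 + r ^ 2 := Real.sq_sqrt (by positivity)
  have y0 : 0 ≤ y := (semi_nonneg t).trans hy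
  have tρ : t ≤ ρ := le_of_pow_le_pow_left₀ two_ne_zero ρ0.le (by nlinarith)
  set φ := arcsin (t / ρ) with hφ
  have hsin : sin φ = t / ρ := Real.sin_arcsin (le_trans (by norm_num) (div_nonneg ht.1 ρ0.le))
    ((div_le_one ρ0).2 tρ)
  have hcos : cos φ = y / ρ := by
    rw [hφ, Real.cos_arcsin, Real.sqrt_eq_iff_eq_sq (by
      rw [sub_nonneg, sq_le_one_iff₀ (div_nonneg ht.1 ρ0.le)]; exact (div_le_one ρ0).2 tρ)
      (div_nonneg y0 ρ0.le), div_pow, div_pow, ρ2]
    field_simp
    linarith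
  have hφ0 : 0 ≤ φ := Real.arcsin_nonneg.2 (div_nonneg ht.1 ρ0.le)
  have hrt : r * t ≤ y := by
    refine le_of_pow_le_pow_left₀ two_ne_zero y0 ?_
    have : t ^ 2 ≤ 1 := by nlinarith [ht.1, ht.2]
    rw [mul_pow, hr2]
    nlinarith [mul_nonneg (sub_nonneg.2 this) (add_nonneg (sq_nonneg t) (sq_nonneg y))]
  have sb : sin (φ + arctan r) = (t + r * y) / (1 + r ^ 2) := by
    rw [Real.sin_add, hsin, hcos, Real.sin_arctan, Real.cos_arctan, ← hρ, ← ρ2]
    field_simp
  have cb : cos (φ + arctan r) = (y - r * t) / (1 + r ^ 2) := by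
    rw [Real.cos_add, hsin, hcos, Real.sin_arctan, Real.cos_arctan, ← hρ, ← ρ2]
    field_simp
  have sa : sin (φ - arctan r) = (t - r * y) / (1 + r ^ 2) := by
    rw [Real.sin_sub, hsin, hcos, Real.sin_arctan, Real.cos_arctan, ← hρ, ← ρ2]
    field_simp
  have ca : cos (φ - arctan r) = (y + r * t) / (1 + r ^ 2) := by
    rw [Real.cos_sub, hsin, hcos, Real.sin_arctan, Real.cos_arctan, ← hρ, ← ρ2]
    field_simp
  have hδ : 0 ≤ arctan r := by simpa using Real.arctan_strictMono.monotone hr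
  have htop : φ + arctan r ≤ π / 2 := by
    by_contra h
    have := Real.cos_neg_of_pi_div_two_lt_of_lt (not_le.1 h)
      (by linarith [Real.arcsin_le_pi_div_two (t / ρ), Real.arctan_lt_pi_div_two r, Real.pi_pos])
    rw [cb] at this
    exact absurd this (not_lt.2 (div_nonneg (by linarith) (by positivity)))
  refine ⟨φ, hsin, hcos, hφ0, htop, sb, ?_, sa, fun h => ?_, ?_, ?_, ?_⟩
  · rw [← sb, ← cb, semi, ← Real.cos_eq_sqrt_one_sub_sin_sq (by linarith [Real.pi_pos]) htop]
  · rw [← sa, ← ca, semi, ← Real.cos_eq_sqrt_one_sub_sin_sq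
      (by linarith [Real.arctan_lt_pi_div_two r]) (by linarith [Real.pi_pos])]
  · rw [le_div_iff₀ (by positivity)]; nlinarith [mul_nonneg hr (sub_nonneg.2 hrt)]
  · rw [← sb]; exact Real.sin_le_one _
  · rw [div_le_iff₀ (by positivity)]; nlinarith [mul_nonneg hr y0, mul_nonneg ht.1 (sq_nonneg r)]

/-- Both tangent segments fit. -/
lemma area_full (hf : Above f) {t : ℝ} (ht : t ∈ Icc (0 : ℝ) 1) {r : ℝ} (hr : 0 ≤ r)
    (hr2 : r ^ 2 = t ^ 2 + f t ^ 2 - 1) (h : r * f t ≤ t) :
    r - arctan r ≤ ∫ x in (0 : ℝ)..1, (f x - semi x) := by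
  obtain ⟨φ, -, -, hφ0, htop, sb, gb, sa, ga, htb, hb1, hat⟩ := tangents ht (hf.le t ht) hr hr2
  have ga := ga h
  set y := f t with hy
  set a := (t - r * y) / (1 + r ^ 2) with ha
  set b := (t + r * y) / (1 + r ^ 2) with hb
  have a0 : 0 ≤ a := div_nonneg (by linarith) (by positivity)
  refine le_trans ?_ (hf.excess_mono le_rfl a0 (hat.trans htb) hb1 le_rfl)
  have i1 := hf.integrable a0 hat ht.2
  have i2 := hf.integrable ht.1 htb hb1
  rw [integral_sub (i1.trans i2) (semi_continuous.intervalIntegrable _ _),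
    ← integral_add_adjacent_intervals i1 i2, integral_semi (by linarith) (hat.trans htb) hb1, gb, ga]
  have t1 := trapezoid_le hat (hf.concave.subset (Icc_subset_Icc a0 ht.2) (convex_Icc _ _)) i1
    (hf.le a ⟨a0, hat.trans ht.2⟩) le_rfl
  have t2 := trapezoid_le htb (hf.concave.subset (Icc_subset_Icc ht.1 hb1) (convex_Icc _ _)) i2
    le_rfl (hf.le b ⟨ht.1.trans htb, hb1⟩)
  rw [gb] at t2
  rw [ga] at t1
  have hδ : 0 ≤ arctan r := by simpa using Real.arctan_strictMono.monotone hr
  rw [show arcsin b = φ + arctan r by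
      rw [← sb, Real.arcsin_sin (by linarith [Real.pi_pos]) htop],
    show arcsin a = φ - arctan r by
      rw [← sa, Real.arcsin_sin (by linarith [Real.arctan_lt_pi_div_two r])
        (by linarith [Real.pi_pos])]]
  have e : (t - a) * ((y + r * t) / (1 + r ^ 2) + y) + (b - t) * (y + (y - r * t) / (1 + r ^ 2))
      - b * ((y - r * t) / (1 + r ^ 2)) + a * ((y + r * t) / (1 + r ^ 2)) = 2 * r := by
    rw [ha, hb]
    field_simp
    linear_combination (-2 * r * (1 + r ^ 2)) * hr2
  rw [← hy] at t1 t2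
  linarith

/-- Clipped on the left: a horizontal segment and the right tangent. -/
lemma area_clipped (hf : Above f) {t : ℝ} (ht : t ∈ Icc (0 : ℝ) 1) {r : ℝ} (hr : 0 ≤ r)
    (hr2 : r ^ 2 = t ^ 2 + f t ^ 2 - 1) :
    max 0 (f t * t - t + t ^ 3 / 6) +
      max 0 ((r - arctan r - t * (f t - semi t) * (1 - (√(1 + r ^ 2))⁻¹)) / 2) ≤
      ∫ x in (0 : ℝ)..1, (f x - semi x) := by
  obtain ⟨φ, hsin, hcos, hφ0, htop, sb, gb, -, -, htb, hb1, -⟩ := tangents ht (hf.le t ht) hr hr2
  set y := f t with hy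
  set b := (t + r * y) / (1 + r ^ 2) with hb
  have i1 := hf.integrable le_rfl ht.1 ht.2
  have i2 := hf.integrable ht.1 htb hb1
  have hs : ∀ a c : ℝ, IntervalIntegrable semi volume a c := fun a c =>
    semi_continuous.intervalIntegrable a c
  refine le_trans ?_ (hf.excess_mono le_rfl le_rfl (ht.1.trans htb) hb1 le_rfl)
  rw [← integral_add_adjacent_intervals (i1.sub (hs _ _)) (i2.sub (hs _ _))]
  refine add_le_add (max_le ?_ ?_) (max_le ?_ ?_)
  · exact integral_nonneg ht.1 fun x hx => sub_nonneg.2 (hf.le x ⟨hx.1, hx.2.trans ht.2⟩)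
  · rw [integral_sub i1 (hs _ _)]
    have h1 : y * t ≤ ∫ x in (0 : ℝ)..t, f x := by
      refine le_trans (le_of_eq (by simp [mul_comm]))
        (integral_mono_on ht.1 (_root_.intervalIntegrable_const (c := y)) i1 fun x hx => ?_)
      exact hf.anti ⟨hx.1, hx.2.trans ht.2⟩ ht hx.2
    linarith [integral_semi_le ht.1 ht.2]
  · exact integral_nonneg htb fun x hx => sub_nonneg.2 (hf.le x ⟨ht.1.trans hx.1, hx.2.trans hb1⟩)
  · rw [integral_sub i2 (hs _ _), integral_semi (by linarith [ht.1]) htb hb1, gb]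
    have t2 := trapezoid_le htb (hf.concave.subset (Icc_subset_Icc ht.1 hb1) (convex_Icc _ _)) i2
      le_rfl (hf.le b ⟨ht.1.trans htb, hb1⟩)
    rw [gb, ← hy] at t2
    have hδ : 0 ≤ arctan r := by simpa using Real.arctan_strictMono.monotone hr
    rw [show arcsin b = φ + arctan r by
      rw [← sb, Real.arcsin_sin (by linarith [Real.pi_pos]) htop]]
    have g1 : semi t ≤ y := hf.le t ht
    set ρ := √(1 + r ^ 2) with hρ
    have ρ0 : 0 < ρ := Real.sqrt_pos.2 (by positivity)
    have hφt : φ ≤ arcsin t := by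
      rw [← Real.arcsin_sin (show -(π / 2) ≤ φ by linarith [Real.pi_pos]) (by linarith), hsin]
      exact Real.monotone_arcsin (div_le_self ht.1 (Real.one_le_sqrt.2 (by nlinarith)))
    have hang : t * (y - semi t) / ρ ≤ arcsin t - φ := by
      refine le_trans (le_of_eq ?_) (Real.sin_le (sub_nonneg.2 hφt))
      rw [Real.sin_sub, Real.sin_arcsin (by linarith [ht.1]) ht.2, Real.cos_arcsin, hsin, hcos]
      simp only [semi]
      ring
    have e : (b - t) * (y + (y - r * t) / (1 + r ^ 2)) - b * ((y - r * t) / (1 + r ^ 2))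
        = r - t * y := by
      rw [hb]
      field_simp
      linear_combination (-r * (1 + r ^ 2)) * hr2
    have : t * (y - semi t) * ρ⁻¹ = t * (y - semi t) / ρ := (div_eq_mul_inv _ _).symm
    linarith

end Vale.Agent.P237
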