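import Vale.Agent.P237.Full.Position

/-!
The equality case of the Brunn-Minkowski inequality for convex bodies of equal volume, by a
transport between the slice volumes.
-/

open MeasureTheory Set Filter Topology Real
open scoped RealInnerProductSpace Pointwise ENNReal

namespace Vale.Agent.P237

variable {n N : ℕ}

/-- The arithmetic-geometric step of the transport, with its equality case. -/
lemma transport_step (hn : 0 < n) {x y : ℝ} (hx : 0 < x) (hy : 0 < y) :
    x ^ n ≤ ((x + y) / 2) ^ n * ((1 + x ^ n / y ^ n) / 2) ∧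
      (((x + y) / 2) ^ n * ((1 + x ^ n / y ^ n) / 2) = x ^ n → x = y) := by
  set u := ((x + y) / 2) ^ n with hu
  set v := (x ^ n + y ^ n) / 2 with hv
  have hu0 : 0 ≤ u := by positivity
  have hv0 : 0 < v := by positivity
  have hyn : 0 < y ^ n := by positivity
  have e : u * ((1 + x ^ n / y ^ n) / 2) = u * v / y ^ n := by
    rw [hv]; field_simp; ring
  have h1 : x * y ≤ ((x + y) / 2) ^ 2 := by nlinarith [sq_nonneg (x - y)]
  have h2 : x ^ n * y ^ n ≤ v ^ 2 := by rw [hv]; nlinarith [sq_nonneg (x ^ n - y ^ n)]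
  have hu2 : u ^ 2 = (((x + y) / 2) ^ 2) ^ n := by rw [hu, ← pow_mul, ← pow_mul, mul_comm]
  have h3 : (x * y) ^ n ≤ u ^ 2 := hu2 ▸ pow_le_pow_left₀ (by positivity) h1 n
  have h5 : (x ^ n * y ^ n) ^ 2 ≤ (u * v) ^ 2 := by
    rw [mul_pow u, sq (x ^ n * y ^ n)]
    refine mul_le_mul ?_ h2 (by positivity) (sq_nonneg _)
    rw [← mul_pow]; exact h3
  have h6 : x ^ n * y ^ n ≤ u * v :=
    (pow_le_pow_iff_left₀ (by positivity) (by positivity) two_ne_zero).1 h5
  refine ⟨by rw [e, le_div_iff₀ hyn]; exact h6, fun heq => ?_⟩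
  by_contra hne
  rw [e, div_eq_iff hyn.ne'] at heq
  have h7 : x * y < ((x + y) / 2) ^ 2 := by
    nlinarith [mul_self_pos.2 (sub_ne_zero.2 hne)]
  have h8 : (x * y) ^ n < u ^ 2 := hu2 ▸ pow_lt_pow_left₀ h7 (by positivity) hn.ne'
  have h9 : (x ^ n * y ^ n) ^ 2 < (u * v) ^ 2 := by
    rw [mul_pow u, sq (x ^ n * y ^ n)]
    refine mul_lt_mul ?_ h2 (by positivity) (sq_nonneg _)
    rw [← mul_pow]; exact h8
  rw [heq] at h9
  exact lt_irrefl _ h9

lemma ballVol_pos' (hn : 0 < n) : 0 < Statement.ballVol n := by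
  obtain ⟨k, rfl⟩ : ∃ k, n = k + 1 := ⟨n - 1, by omega⟩
  exact ballVol_pos k

namespace Frame

variable {ν : E (n + 1)} (F : Frame ν) {K : Set (E (n + 1))}

lemma rad_pow_integrable (hn : 0 < n) (hK : Body K) :
    Integrable (fun t => F.rad K t ^ n) ∧
      Statement.ballVol n * ∫ t, F.rad K t ^ n = (volume K).toReal := by
  have hκ := ballVol_pos' hn
  obtain ⟨h1, h2⟩ := F.volume_slices K hK.cpt
  simp only [F.volume_slice_eq hn] at h1 h2
  refine ⟨(h1.div_const (Statement.ballVol n)).congr (Eventually.of_forall fun t => ?_), ?_⟩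
  · simp only; field_simp
  · rwa [integral_const_mul] at h2

lemma first_moment (hn : 0 < n) (hK : Body K) :
    ∫ x in K, ⟪x, ν⟫ = Statement.ballVol n * ∫ t, t * F.rad K t ^ n := by
  rw [(F.integral_slices hK.cpt (g := fun x => ⟪x, ν⟫) (by fun_prop)).2, ← integral_const_mul]
  refine integral_congr_ae (Eventually.of_forall fun t => ?_)
  simp only [F.inner_axis_S, setIntegral_const, smul_eq_mul, measureReal_def, F.volume_slice_eq hn]
  ring

/-- The profile of a body. -/
lemma rad_profile (hn : 0 < n) (hK : Body K) (hi : (interior K).Nonempty) :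
    -supp K (-ν) < supp K ν ∧ ConcaveOn ℝ (Icc (-supp K (-ν)) (supp K ν)) (F.rad K) ∧
      (∀ t ∈ Ioo (-supp K (-ν)) (supp K ν), 0 < F.rad K t) ∧
      ∀ t, t ∉ Icc (-supp K (-ν)) (supp K ν) → F.rad K t = 0 := by
  set a := -supp K (-ν) with ha
  set b := supp K ν with hb
  have hne : K.Nonempty := hi.mono interior_subset
  have hcoord : ∀ t y, ⟪ν, F.S (t, y)⟫ = t := fun t y => by
    rw [real_inner_comm, F.inner_axis_S]
  have hzero : ∀ t, t ∉ Icc a b → F.rad K t = 0 := by
    intro t ht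
    refine F.rad_eq_zero hn (eq_empty_iff_forall_notMem.2 fun y hy => ht ?_)
    have h1 := (supp_spec hK.cpt hne ν).2 _ hy
    have h2 := (supp_spec hK.cpt hne (-ν)).2 _ hy
    rw [inner_neg_left, hcoord] at h2
    rw [hcoord] at h1
    exact ⟨by linarith, h1⟩
  have hsne : ∀ t ∈ Icc a b, (F.slice K t).Nonempty := by
    intro t ht
    obtain ⟨⟨k, hk, ek⟩, -⟩ := supp_spec hK.cpt hne ν
    obtain ⟨⟨l, hl, el⟩, -⟩ := supp_spec hK.cpt hne (-ν)
    rw [← hb] at ek
    rw [inner_neg_left] at el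
    have hla : ⟪ν, l⟫ = a := by rw [ha]; linarith
    have hconn := hK.conv.isPreconnected.image (fun x => ⟪ν, x⟫)
      (by fun_prop : Continuous _).continuousOn
    obtain ⟨x, hx, hxt⟩ := hconn.ordConnected.out ⟨l, hl, hla⟩ ⟨k, hk, ek.symm⟩ ht
    refine ⟨F.proj x, ?_⟩
    have hx1 : (F.S.symm x).1 = t := by
      rw [← hxt, ← hcoord (F.S.symm x).1 (F.S.symm x).2, Prod.mk.eta, F.S.apply_symm_apply]
    show F.S (t, F.proj x) ∈ K
    rw [← hx1, Frame.proj, Prod.mk.eta, F.S.apply_symm_apply]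
    exact hx
  have hV : 0 < (volume K).toReal := ENNReal.toReal_pos
    ((isOpen_interior.measure_pos volume hi).trans_le (measure_mono interior_subset)).ne'
    hK.cpt.measure_lt_top.ne
  obtain ⟨hri, hre⟩ := F.rad_pow_integrable hn hK
  have hI : 0 < ∫ t in Icc a b, F.rad K t ^ n := by
    rw [setIntegral_eq_integral_of_forall_compl_eq_zero
      (fun t ht => by rw [hzero t ht, zero_pow hn.ne'])]
    exact pos_of_mul_pos_right (hre ▸ hV) (ballVol_pos' hn).le
  have hab : a < b := by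
    by_contra hc
    have : volume (Icc a b) = 0 := by
      rw [Real.volume_Icc, ENNReal.ofReal_eq_zero]; linarith [not_lt.1 hc]
    rw [setIntegral_measure_zero _ this] at hI
    linarith
  have hconc := F.rad_concave hn hK hsne
  refine ⟨hab, hconc, fun t ht => ?_, hzero⟩
  obtain ⟨t₀, ht₀, hft₀⟩ : ∃ t₀ ∈ Icc a b, 0 < F.rad K t₀ := by
    by_contra hc
    push Not at hc
    have : ∫ t in Icc a b, F.rad K t ^ n = 0 :=
      setIntegral_eq_zero_of_forall_eq_zero fun t ht => by
        rw [le_antisymm (hc t ht) (F.rad_nonneg hn t), zero_pow hn.ne']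
    linarith
  obtain ⟨e, he, p, hp0, hp1, hpe⟩ : ∃ e ∈ Icc a b, ∃ p, 0 < p ∧ p ≤ (1 : ℝ) ∧
      p * t₀ + (1 - p) * e = t := by
    rcases lt_trichotomy t t₀ with h | h | h
    · refine ⟨a, left_mem_Icc.2 hab.le, (t - a) / (t₀ - a), div_pos (by linarith [ht.1])
        (by linarith [ht.1]), (div_le_one (by linarith [ht.1])).2 (by linarith), ?_⟩
      have : t₀ - a ≠ 0 := by linarith [ht.1]
      field_simp; ring
    · exact ⟨a, left_mem_Icc.2 hab.le, 1, one_pos, le_rfl, by linarith⟩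
    · refine ⟨b, right_mem_Icc.2 hab.le, (b - t) / (b - t₀), div_pos (by linarith [ht.2])
        (by linarith [ht.2]), (div_le_one (by linarith [ht.2])).2 (by linarith), ?_⟩
      have : b - t₀ ≠ 0 := by linarith [ht.2]
      field_simp; ring
  have h := hconc.2 ht₀ he hp0.le (sub_nonneg.2 hp1) (by ring)
  simp only [smul_eq_mul, hpe] at h
  exact lt_of_lt_of_le (add_pos_of_pos_of_nonneg (mul_pos hp0 hft₀)
    (mul_nonneg (sub_nonneg.2 hp1) (F.rad_nonneg hn e))) h

/-- Brunn-Minkowski for slices of a half sum. -/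
lemma rad_half_add (hn : 0 < n) {L : Set (E (n + 1))} (hK : Body K) (hL : Body L) {s t : ℝ}
    (hs : 0 < F.rad K s) (ht : 0 < F.rad L t) :
    (F.rad K s + F.rad L t) / 2 ≤ F.rad ((1 / 2 : ℝ) • (K + L)) ((s + t) / 2) := by
  obtain ⟨c, hc0, hc⟩ := exists_root hn.ne' (ballVol_pos' hn).le
  have hc' : 0 < c := hc0.lt_of_ne' fun h => by
    rw [h, zero_pow hn.ne'] at hc
    linarith [ballVol_pos' hn]
  set M := (1 / 2 : ℝ) • (K + L) with hM
  have hMb : Body M := ⟨(hK.conv.add hL.conv).smul _, (hK.cpt.add hL.cpt).smul _⟩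
  have hnes : (F.slice K s).Nonempty := nonempty_iff_ne_empty.2 fun h =>
    hs.ne' (F.rad_eq_zero hn h)
  have hnet : (F.slice L t).Nonempty := nonempty_iff_ne_empty.2 fun h =>
    ht.ne' (F.rad_eq_zero hn h)
  have hvol : ∀ (A : Set (E (n + 1))) u, (c * F.rad A u) ^ n = (volume (F.slice A u)).toReal :=
    fun A u => by rw [mul_pow, hc, F.volume_slice_eq hn]
  have hsub : (1 / 2 : ℝ) • F.slice K s + (1 / 2 : ℝ) • F.slice L t ⊆ F.slice M ((s + t) / 2) := by
    rintro _ ⟨_, ⟨y, hy, rfl⟩, _, ⟨z, hz, rfl⟩, rfl⟩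
    show F.S ((s + t) / 2, (1 / 2 : ℝ) • y + (1 / 2 : ℝ) • z) ∈ M
    have e : (((s + t) / 2, (1 / 2 : ℝ) • y + (1 / 2 : ℝ) • z) : ℝ × E n) =
        (1 / 2 : ℝ) • ((s, y) + (t, z)) := by
      rw [Prod.mk_add_mk, Prod.smul_mk, smul_eq_mul, ← smul_add]; congr 1; ring
    rw [e, map_smul, map_add]
    exact smul_mem_smul_set (add_mem_add hy hz)
  have h := bm ((F.slice_body hK s).cpt.smul (1 / 2 : ℝ)) ((F.slice_body hL t).cpt.smul (1 / 2 : ℝ))
    hnes.smul_set hnet.smul_set (a := 1 / 2 * (c * F.rad K s)) (b := 1 / 2 * (c * F.rad L t))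
    (by positivity) (by positivity) (by rw [volume_smul (by norm_num), mul_pow, hvol])
    (by rw [volume_smul (by norm_num), mul_pow, hvol])
  have h2 : (c * ((F.rad K s + F.rad L t) / 2)) ^ n ≤ (c * F.rad M ((s + t) / 2)) ^ n := by
    rw [hvol, show c * ((F.rad K s + F.rad L t) / 2) =
      1 / 2 * (c * F.rad K s) + 1 / 2 * (c * F.rad L t) by ring]
    exact h.trans (ENNReal.toReal_mono (F.slice_body hMb _).cpt.measure_lt_top.ne (measure_mono hsub))
  exact le_of_mul_le_mul_left ((pow_le_pow_iff_left₀ (by positivity)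
    (mul_nonneg hc0 (F.rad_nonneg hn _)) hn.ne').1 h2) hc'

end Frame

section Transport

variable {f : ℝ → ℝ} {a b : ℝ}

/-- The primitive of a positive integrable function maps the interval onto the interval of values. -/
lemma prim_facts (hab : a < b) (hfi : Integrable f) (hc : ContinuousOn f (Ioo a b))
    (hpos : ∀ t ∈ Ioo a b, 0 < f t) (hzero : ∀ t, t ∉ Icc a b → f t = 0) :
    StrictMonoOn (fun t => ∫ x in a..t, f x) (Icc a b) ∧
      (fun t => ∫ x in a..t, f x) '' Ioo a b = Ioo 0 (∫ x, f x) ∧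
      ∀ t ∈ Ioo a b, HasDerivAt (fun t => ∫ x in a..t, f x) (f t) t := by
  have hii : ∀ x y, IntervalIntegrable f volume x y := fun x y => hfi.intervalIntegrable
  have hmono : StrictMonoOn (fun t => ∫ x in a..t, f x) (Icc a b) := by
    intro x hx y hy hxy
    have h : 0 < ∫ u in x..y, f u := intervalIntegral.intervalIntegral_pos_of_pos_on (hii x y)
      (fun u hu => hpos u ⟨lt_of_le_of_lt hx.1 hu.1, lt_of_lt_of_le hu.2 hy.2⟩) hxy
    have e := intervalIntegral.integral_interval_sub_left (hii a y) (hii a x)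
    simp only
    linarith
  have htot : ∫ x in a..b, f x = ∫ x, f x := by
    rw [intervalIntegral.integral_of_le hab.le, ← integral_Icc_eq_integral_Ioc,
      setIntegral_eq_integral_of_forall_compl_eq_zero hzero]
  refine ⟨hmono, Subset.antisymm ?_ ?_, fun t ht => intervalIntegral.integral_hasDerivAt_right
    (hii a t) hfi.aestronglyMeasurable.stronglyMeasurableAtFilter
    (hc.continuousAt (isOpen_Ioo.mem_nhds ht))⟩
  · rintro _ ⟨t, ht, rfl⟩
    have h1 := hmono (left_mem_Icc.2 hab.le) (Ioo_subset_Icc_self ht) ht.1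
    have h2 := hmono (Ioo_subset_Icc_self ht) (right_mem_Icc.2 hab.le) ht.2
    simp only [intervalIntegral.integral_same, htot] at h1 h2
    exact ⟨h1, h2⟩
  · have h := intermediate_value_Ioo hab.le
      (intervalIntegral.continuous_primitive hii a).continuousOn
    rwa [intervalIntegral.integral_same, htot] at h

end Transport

/-- Equality in Brunn-Minkowski along one direction: the extents differ by the difference of the
first moments. -/
lemma bm_eq_dir (hn : 0 < n) {K L : Set (E (n + 1))} (hK : Body K) (hL : Body L)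
    (hiK : (interior K).Nonempty) (hiL : (interior L).Nonempty)
    (hv : (volume L).toReal = (volume K).toReal)
    (hM : (volume ((1 / 2 : ℝ) • (K + L))).toReal ≤ (volume K).toReal)
    {ν : E (n + 1)} (F : Frame ν) :
    (supp K ν - supp L ν) * (volume K).toReal = (∫ x in K, ⟪x, ν⟫) - ∫ x in L, ⟪x, ν⟫ := by
  have hκ := ballVol_pos' hn
  set κ := Statement.ballVol n
  set M := (1 / 2 : ℝ) • (K + L) with hMdef
  have hMb : Body M := ⟨(hK.conv.add hL.conv).smul _, (hK.cpt.add hL.cpt).smul _⟩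
  obtain ⟨hab, hρc, hρpos, hρ0⟩ := F.rad_profile hn hK hiK
  obtain ⟨hab', hσc, hσpos, hσ0⟩ := F.rad_profile hn hL hiL
  obtain ⟨hρi, hρe⟩ := F.rad_pow_integrable hn hK
  obtain ⟨hσi, hσe⟩ := F.rad_pow_integrable hn hL
  obtain ⟨hτi, hτe⟩ := F.rad_pow_integrable hn hMb
  set a₁ := -supp K (-ν)
  set a₂ := supp K ν
  set b₁ := -supp L (-ν)
  set b₂ := supp L ν
  set ρ := F.rad K
  set σ := F.rad L
  set τ := F.rad M
  set W := ∫ t, ρ t ^ n with hW
  have hWσ : ∫ t, σ t ^ n = W := mul_left_cancel₀ hκ.ne' (by rw [hσe, hv, hρe])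
  have hWτ : ∫ t, τ t ^ n ≤ W := le_of_mul_le_mul_left (by rw [hτe, hρe]; exact hM) hκ
  set I := Ioo a₁ a₂ with hI
  set J' := Ioo b₁ b₂ with hJ'
  have hρcont : ContinuousOn ρ I :=
    (hρc.subset Ioo_subset_Icc_self (convex_Ioo _ _)).continuousOn isOpen_Ioo
  have hσcont : ContinuousOn σ J' :=
    (hσc.subset Ioo_subset_Icc_self (convex_Ioo _ _)).continuousOn isOpen_Ioo
  obtain ⟨hPm, hPim, hPd⟩ := prim_facts hab hρi (hρcont.pow n) (fun t ht => pow_pos (hρpos t ht) n)
    (fun t ht => by rw [hρ0 t ht, zero_pow hn.ne'])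
  obtain ⟨hQm, hQim, hQd⟩ := prim_facts hab' hσi (hσcont.pow n) (fun t ht => pow_pos (hσpos t ht) n)
    (fun t ht => by rw [hσ0 t ht, zero_pow hn.ne'])
  rw [hWσ] at hQim
  set P := fun t => ∫ x in a₁..t, ρ x ^ n
  set Q := fun t => ∫ x in b₁..t, σ x ^ n
  set S := Function.invFunOn Q J' with hS
  have hSmem : ∀ w ∈ Ioo 0 W, S w ∈ J' ∧ Q (S w) = w := fun w hw => by
    obtain ⟨t, ht, e⟩ := hQim.ge hw
    exact ⟨Function.invFunOn_mem ⟨t, ht, e⟩, Function.invFunOn_eq ⟨t, ht, e⟩⟩
  have hSQ : ∀ t ∈ J', S (Q t) = t := fun t ht => by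
    have h := hSmem _ (hQim.le ⟨t, ht, rfl⟩)
    exact hQm.injOn (Ioo_subset_Icc_self h.1) (Ioo_subset_Icc_self ht) h.2
  have hSmono : StrictMonoOn S (Ioo 0 W) := fun v hv' w hw hvw => by
    obtain ⟨h1, e1⟩ := hSmem v hv'
    obtain ⟨h2, e2⟩ := hSmem w hw
    by_contra hc
    have := hQm.monotoneOn (Ioo_subset_Icc_self h2) (Ioo_subset_Icc_self h1) (not_lt.1 hc)
    rw [e1, e2] at this
    linarith
  have hSd : ∀ w ∈ Ioo 0 W, HasDerivAt S (σ (S w) ^ n)⁻¹ w := fun w hw => by
    refine HasDerivAt.of_local_left_inverse ?_ (hQd _ (hSmem w hw).1)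
      (pow_pos (hσpos _ (hSmem w hw).1) n).ne' ?_
    · refine hSmono.continuousAt_of_image_mem_nhds (isOpen_Ioo.mem_nhds hw)
        (mem_of_superset (isOpen_Ioo.mem_nhds (hSmem w hw).1) fun t ht => ⟨Q t, hQim.le ⟨t, ht, rfl⟩,
          hSQ t ht⟩)
    · filter_upwards [isOpen_Ioo.mem_nhds hw] with y hy using (hSmem y hy).2
  set T := fun s => S (P s) with hT
  have hPI : ∀ s ∈ I, P s ∈ Ioo 0 W := fun s hs => hPim.le ⟨s, hs, rfl⟩
  have hTJ : ∀ s ∈ I, T s ∈ J' := fun s hs => (hSmem _ (hPI s hs)).1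
  have hTd : ∀ s ∈ I, HasDerivAt T (ρ s ^ n / σ (T s) ^ n) s := fun s hs => by
    refine ((hSd _ (hPI s hs)).comp s (hPd s hs)).congr_deriv ?_
    rw [inv_mul_eq_div]
  have hTmono : StrictMonoOn T I := fun x hx y hy hxy =>
    hSmono (hPI x hx) (hPI y hy) (hPm (Ioo_subset_Icc_self hx) (Ioo_subset_Icc_self hy) hxy)
  set U := fun s => (s + T s) / 2 with hU
  set U' := fun s => (1 + ρ s ^ n / σ (T s) ^ n) / 2 with hU'
  have hUd : ∀ s ∈ I, HasDerivWithinAt U (U' s) I s := fun s hs =>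
    (((hasDerivAt_id s).add (hTd s hs)).div_const 2).hasDerivWithinAt
  have hU'0 : ∀ s ∈ I, 0 ≤ U' s := fun s hs => by
    have := hρpos s hs
    have := hσpos _ (hTJ s hs)
    positivity
  have hUinj : InjOn U I := StrictMonoOn.injOn fun x hx y hy hxy => by
    have := hTmono hx hy hxy
    simp only [hU]
    linarith
  have hτi' : IntegrableOn (fun s => |U' s| • τ (U s) ^ n) I :=
    (integrableOn_image_iff_integrableOn_abs_deriv_smul measurableSet_Ioo hUd hUinj
      fun u => τ u ^ n).1 hτi.integrableOn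
  have hle : ∫ s in I, |U' s| • τ (U s) ^ n ≤ ∫ s in I, ρ s ^ n := by
    rw [← integral_image_eq_integral_abs_deriv_smul measurableSet_Ioo hUd hUinj fun u => τ u ^ n]
    have e : ∫ s in I, ρ s ^ n = W := by
      rw [hI, ← integral_Icc_eq_integral_Ioo,
        setIntegral_eq_integral_of_forall_compl_eq_zero fun t ht => by
          rw [hρ0 t ht, zero_pow hn.ne']]
    rw [e]
    exact (setIntegral_le_integral hτi
      (Eventually.of_forall fun u => pow_nonneg (F.rad_nonneg hn u) n)).trans hWτ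
  set h := fun s => ((ρ s + σ (T s)) / 2) ^ n * U' s - ρ s ^ n with hh
  have hh0 : ∀ s ∈ I, 0 ≤ h s := fun s hs =>
    sub_nonneg.2 (transport_step hn (hρpos s hs) (hσpos _ (hTJ s hs))).1
  have hhd : ∀ s ∈ I, h s ≤ |U' s| • τ (U s) ^ n - ρ s ^ n := fun s hs => by
    rw [hh, smul_eq_mul, abs_of_nonneg (hU'0 s hs), mul_comm (U' s)]
    refine sub_le_sub_right (mul_le_mul_of_nonneg_right (pow_le_pow_left₀ ?_ ?_ n) (hU'0 s hs)) _
    · linarith [hρpos s hs, hσpos _ (hTJ s hs)]
    · exact F.rad_half_add hn hK hL (hρpos s hs) (hσpos _ (hTJ s hs))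
  have hd0 : ∀ᵐ s ∂volume.restrict I, |U' s| • τ (U s) ^ n - ρ s ^ n = 0 := by
    have hnn : 0 ≤ᵐ[volume.restrict I] fun s => |U' s| • τ (U s) ^ n - ρ s ^ n :=
      ae_restrict_of_forall_mem measurableSet_Ioo fun s hs => (hh0 s hs).trans (hhd s hs)
    refine (setIntegral_eq_zero_iff_of_nonneg_ae hnn (hτi'.sub hρi.integrableOn)).1
      (le_antisymm ?_ (integral_nonneg_of_ae hnn))
    rw [integral_sub hτi' hρi.integrableOn]
    linarith
  have hTc : ContinuousOn T I := fun s hs => (hTd s hs).continuousAt.continuousWithinAt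
  have hσT : ContinuousOn (fun s => σ (T s)) I := hσcont.comp hTc hTJ
  have hhc : ContinuousOn h I := by
    refine ((((hρcont.add hσT).div_const 2).pow n).mul ?_).sub (hρcont.pow n)
    exact (continuousOn_const.add ((hρcont.pow n).div (hσT.pow n) fun s hs =>
      (pow_pos (hσpos _ (hTJ s hs)) n).ne')).div_const 2
  have hzero : EqOn h 0 I := by
    refine Measure.eqOn_open_of_ae_eq (μ := (volume : Measure ℝ)) ?_ isOpen_Ioo hhc continuousOn_const
    filter_upwards [hd0, ae_restrict_mem measurableSet_Ioo] with s hs hsI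
    exact le_antisymm ((hhd s hsI).trans hs.le) (hh0 s hsI)
  have heq : ∀ s ∈ I, ρ s = σ (T s) := fun s hs => by
    refine (transport_step hn (hρpos s hs) (hσpos _ (hTJ s hs))).2 ?_
    have := hzero hs
    simp only [hh, hU', Pi.zero_apply] at this
    linarith
  have hTd' : ∀ s ∈ I, HasDerivAt (fun s => s - T s) 0 s := fun s hs => by
    have h1 := hTd s hs
    rw [← heq s hs, div_self (pow_pos (hρpos s hs) n).ne'] at h1
    exact ((hasDerivAt_id s).sub h1).congr_deriv (sub_self 1)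
  have hmid : (a₁ + a₂) / 2 ∈ I := ⟨by linarith, by linarith⟩
  set c := (a₁ + a₂) / 2 - T ((a₁ + a₂) / 2) with hc
  have hTc' : ∀ s ∈ I, T s = s - c := fun s hs => by
    have h1 := isOpen_Ioo.is_const_of_deriv_eq_zero (isPreconnected_Ioo (a := a₁) (b := a₂))
      (fun x hx => (hTd' x hx).differentiableAt.differentiableWithinAt)
      (fun x hx => (hTd' x hx).deriv) hs hmid
    linarith
  have himg : J' = Ioo (a₁ - c) (a₂ - c) := by
    ext t
    constructor
    · intro ht
      obtain ⟨s, hs, e⟩ := hPim.ge (hQim.le ⟨t, ht, rfl⟩)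
      have e' : T s = t := by rw [hT]; simp only [e, hSQ t ht]
      rw [hTc' s hs] at e'
      exact ⟨by linarith [hs.1], by linarith [hs.2]⟩
    · intro ht
      have hs : t + c ∈ I := ⟨by linarith [ht.1], by linarith [ht.2]⟩
      have := hTJ _ hs
      rwa [hTc' _ hs, add_sub_cancel_right] at this
  have hb₁ : b₁ = a₁ - c := by
    have h := congrArg sInf himg
    rwa [hJ', csInf_Ioo hab', csInf_Ioo (by linarith)] at h
  have hb₂ : b₂ = a₂ - c := by
    have h := congrArg sSup himg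
    rwa [hJ', csSup_Ioo hab', csSup_Ioo (by linarith)] at h
  have hae : (fun t => t * ρ t ^ n) =ᵐ[volume] fun t => t * σ (t - c) ^ n := by
    filter_upwards [((Set.toFinite ({a₁, a₂} : Set ℝ)).countable.ae_notMem volume)] with t ht
    by_cases htI : t ∈ I
    · rw [heq t htI, hTc' t htI]
    · have ht' : t ∉ Icc a₁ a₂ := fun h => htI ⟨h.1.lt_of_ne fun e => ht (by simp [← e]),
        h.2.lt_of_ne fun e => ht (by simp [e])⟩
      have hu : t - c ∉ Icc b₁ b₂ := fun h => ht' ⟨by linarith [h.1], by linarith [h.2]⟩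
      rw [hρ0 t ht', hσ0 _ hu]
  have hmom : ∫ t, t * ρ t ^ n = (∫ t, t * σ t ^ n) + c * W := by
    rw [integral_congr_ae hae, ← integral_add_right_eq_self (fun t => t * σ (t - c) ^ n) c]
    simp only [add_sub_cancel_right, add_mul]
    have hti : Integrable fun t => t * σ t ^ n := by
      refine (integrableOn_iff_integrable_of_support_subset (s := Icc b₁ b₂) fun t ht => ?_).1
        (hσi.integrableOn.continuousOn_mul continuousOn_id isCompact_Icc)
      by_contra h
      exact ht (by simp [hσ0 t h, zero_pow hn.ne'])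
    rw [integral_add hti (hσi.const_mul c), integral_const_mul, hWσ]
  rw [F.first_moment hn hK, F.first_moment hn hL, hmom, ← hρe]
  show (a₂ - b₂) * (κ * W) = _
  rw [hb₂]
  ring

lemma subset_of_supp_le {A B : Set (E N)} (hA : IsCompact A) (hB : Body B) (hBne : B.Nonempty)
    (h : ∀ u, supp A u ≤ supp B u) : A ⊆ B := by
  intro x hx
  by_contra hxB
  obtain ⟨f, c, hfc, hcx⟩ := geometric_hahn_banach_closed_point hB.conv hB.cpt.isClosed hxB
  set w := (InnerProductSpace.toDual ℝ (E N)).symm f with hw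
  have hfw : ∀ y, f y = ⟪w, y⟫ := fun y => by rw [hw, InnerProductSpace.toDual_symm_apply]
  obtain ⟨⟨k, hk, ek⟩, -⟩ := supp_spec hB.cpt hBne w
  have h1 := hfc k hk
  rw [hfw, ← ek] at h1
  rw [hfw] at hcx
  linarith [(supp_spec hA ⟨x, hx⟩ w).2 x hx, h w]

lemma supp_vadd {A : Set (E N)} (hA : IsCompact A) (hne : A.Nonempty) (g u : E N) :
    supp (g +ᵥ A) u = ⟪u, g⟫ + supp A u := by
  have hc := hA.vadd g
  have hn' : (g +ᵥ A).Nonempty := hne.vadd_set
  obtain ⟨⟨k, hk, e⟩, h⟩ := supp_spec hA hne u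
  obtain ⟨⟨k', hk', e'⟩, h'⟩ := supp_spec hc hn' u
  obtain ⟨k₁, hk₁, rfl⟩ := hk'
  refine le_antisymm ?_ ?_
  · rw [e']
    show ⟪u, g + k₁⟫ ≤ _
    rw [inner_add_right]
    linarith [h _ hk₁]
  · rw [e]
    have := h' _ (vadd_mem_vadd_set (a := g) hk)
    rw [vadd_eq_add, inner_add_right] at this
    linarith

/-- **Equality in Brunn-Minkowski**: convex bodies of equal volume whose half sum has no larger
volume are translates of one another. -/
theorem bm_eq (hn : 0 < n) {K L : Set (E (n + 1))} (hK : Body K) (hL : Body L)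
    (hiK : (interior K).Nonempty) (hiL : (interior L).Nonempty)
    (hv : (volume L).toReal = (volume K).toReal)
    (hM : (volume ((1 / 2 : ℝ) • (K + L))).toReal ≤ (volume K).toReal) :
    ∃ g : E (n + 1), K = g +ᵥ L := by
  have hKne := hiK.mono interior_subset
  have hLne := hiL.mono interior_subset
  have hV : 0 < (volume K).toReal := ENNReal.toReal_pos
    ((isOpen_interior.measure_pos volume hiK).trans_le (measure_mono interior_subset)).ne'
    hK.cpt.measure_lt_top.ne
  set g := (volume K).toReal⁻¹ • ((∫ x in K, x) - ∫ x in L, x) with hg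
  have hsupp : ∀ u, supp K u = supp (g +ᵥ L) u := by
    intro u
    rw [supp_vadd hL.cpt hLne]
    rcases eq_or_ne u 0 with rfl | hu
    · have hK0 := supp_smul hK.cpt hKne (le_refl (0 : ℝ)) 0
      have hL0 := supp_smul hL.cpt hLne (le_refl (0 : ℝ)) 0
      rw [zero_smul, zero_mul] at hK0 hL0
      rw [hK0, hL0, inner_zero_left, add_zero]
    obtain ⟨F⟩ := exists_frame (ν := ‖u‖⁻¹ • u) (norm_smul_inv_norm hu)
    have hint : ∀ {A : Set (E (n + 1))}, IsCompact A → ∀ v : E (n + 1),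
        ∫ x in A, ⟪x, v⟫ = ⟪v, ∫ x in A, x⟫ := fun {A} hA v => by
      rw [← integral_inner (f := fun x : E (n + 1) => x)
        (continuous_id.continuousOn.integrableOn_compact hA)]
      exact integral_congr_ae (Eventually.of_forall fun x => real_inner_comm _ _)
    have h := bm_eq_dir hn hK hL hiK hiL hv hM F
    rw [hint hK.cpt, hint hL.cpt, ← inner_sub_right, real_inner_smul_left,
      supp_smul hK.cpt hKne (inv_nonneg.2 (norm_nonneg u)),
      supp_smul hL.cpt hLne (inv_nonneg.2 (norm_nonneg u)), ← mul_sub, mul_assoc] at h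
    have h1 := mul_left_cancel₀ (inv_ne_zero (norm_ne_zero_iff.2 hu)) h
    rw [hg, inner_smul_right, ← h1]
    field_simp
    ring
  refine ⟨g, Subset.antisymm (subset_of_supp_le hK.cpt (hL.vadd g) hLne.vadd_set fun u => (hsupp u).le)
    (subset_of_supp_le (hL.vadd g).cpt hK hKne fun u => (hsupp u).ge)⟩

end Vale.Agent.P237
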