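import Vale.Agent.P237.Full.Minimiser
import Vale.Agent.P237.Full.BMEq
import Vale.Agent.P237.Full.Shadow

/-!
Class reduction: `R(Π K) ≤ R(K)`, and a minimiser is a translate of a symmetric body `Z` with
`Π² Z` homothetic to `Z`.
-/

open MeasureTheory Set Filter Topology Real
open scoped RealInnerProductSpace Pointwise ENNReal NNReal

namespace Vale.Agent.P237.Full

variable {m n N : ℕ}

lemma Sublin.exists_lip {p : E N → ℝ} (hp : Sublin p) : ∃ L : ℝ≥0, LipschitzWith L p := by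
  obtain ⟨B, hB0, hB⟩ := hp.upper
  refine ⟨⟨B, hB0⟩, LipschitzWith.of_le_add_mul ⟨B, hB0⟩ fun u v => ?_⟩
  have h1 := hp.add v (u - v)
  rw [add_sub_cancel] at h1
  rw [dist_eq_norm]
  exact h1.trans (add_le_add le_rfl (hB _))

lemma Sublin.supp_smul_wulff {p : E N → ℝ} (hp : Sublin p) {s : ℝ} (hs : 0 ≤ s) (u : E N) :
    supp (s • wulff p) u = s * p u := by
  have hne : (wulff p).Nonempty := ⟨0, interior_subset hp.cen.int⟩
  obtain ⟨⟨_, ⟨q, hq, rfl⟩, e⟩, h⟩ := supp_spec (hp.cen.cpt.smul s) hne.smul_set u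
  obtain ⟨y, hy, ey⟩ := hp.exists_support u
  refine le_antisymm ?_ ?_
  · rw [e]
    show ⟪u, s • q⟫ ≤ _
    rw [inner_smul_right, real_inner_comm]
    exact mul_le_mul_of_nonneg_left (hq u) hs
  · rw [← ey, real_inner_comm, ← inner_smul_right]
    exact h _ (smul_mem_smul_set hy)

lemma sublin_projBody2 {K : Set (E (n + 1))} (hK : Cen K) :
    Cen (projBody K) ∧ Sublin (projVol (projBody K)) := by
  have h := (sublin_projVol hK.toBody ⟨0, hK.int⟩).cen
  exact ⟨h, sublin_projVol h.toBody ⟨0, h.int⟩⟩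

lemma vol_pos {K : Set (E N)} (hK : Cen K) : 0 < (volume K).toReal :=
  ENNReal.toReal_pos (Measure.measure_pos_of_mem_nhds volume hK.nhds_zero).ne'
    hK.cpt.measure_lt_top.ne

/-- `∫ h_{Π²K} dS_K ≤ n |Π K|`. -/
lemma J_proj_le {K : Set (E (m + 2))} (hK : Cen K) :
    J K (projVol (projBody K)) ≤ (m + 2 : ℝ) * (volume (projBody K)).toReal := by
  obtain ⟨-, hp⟩ := sublin_projBody2 hK
  obtain ⟨L, hL⟩ := Sublin.exists_lip hp
  refine step hK hL (fun c hc x => by rw [projVol_smul, abs_of_nonneg hc]) fun v hv F => ?_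
  rw [← projVol_projBody hK.toBody ⟨0, hK.int⟩ F, projVol_smul, abs_of_nonneg
    (inv_nonneg.2 (norm_nonneg v)), ← mul_assoc, mul_inv_cancel₀ (norm_ne_zero_iff.2 hv), one_mul]

/-- The roots of `|K|` and `|Π² K|`. -/
lemma roots {K : Set (E (m + 2))} (hK : Cen K) : ∃ a b : ℝ, 0 < a ∧ 0 < b ∧
    a ^ (m + 2) = (volume K).toReal ∧ b ^ (m + 2) = (volume (projBody (projBody K))).toReal ∧
    a ^ (m + 1) * b ≤ (volume (projBody K)).toReal := by
  obtain ⟨hP, hp⟩ := sublin_projBody2 hK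
  obtain ⟨a, ha0, ha⟩ := exists_root (n := m + 2) (by omega) (vol_pos hK).le
  have hv2 : 0 < (volume (projBody (projBody K))).toReal := vol_pos hp.cen
  obtain ⟨b, hb0, hb⟩ := exists_root (n := m + 2) (by omega) hv2.le
  have ha' : 0 < a := ha0.lt_of_ne' fun h => by
    rw [h, zero_pow (by omega)] at ha; linarith [vol_pos hK]
  have hb' : 0 < b := hb0.lt_of_ne' fun h => by
    rw [h, zero_pow (by omega)] at hb; linarith
  refine ⟨a, b, ha', hb', ha, hb, ?_⟩
  have h := mink hK hp.cen.cpt (L := wulff (projVol (projBody K))) ⟨0, interior_subset hp.cen.int⟩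
    hp.continuous (fun l hl v => by rw [real_inner_comm]; exact hl v) ha0 hb0 ha hb.le
  have h2 := h.trans (J_proj_le hK)
  push_cast at h2
  nlinarith [h2, show (0 : ℝ) < (m : ℝ) + 2 by positivity]

/-- **`R(Π K) ≤ R(K)`.** -/
theorem ratio_projBody_le {K : Set (E (m + 2))} (hK : Cen K) : ratio (projBody K) ≤ ratio K := by
  obtain ⟨a, b, ha0, hb0, ha, hb, hab⟩ := roots hK
  have hP := vol_pos (sublin_projBody2 hK).1
  simp only [ratio, show m + 2 - 1 = m + 1 by omega]
  rw [div_le_div_iff₀ (pow_pos hP _) (pow_pos (vol_pos hK) _), ← ha, ← hb]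
  have h := pow_le_pow_left₀ (by positivity) hab (m + 2)
  rw [mul_pow, ← pow_mul, mul_comm (m + 1) (m + 2), pow_mul] at h
  calc b ^ (m + 2) * (a ^ (m + 2)) ^ (m + 1) = (a ^ (m + 2)) ^ (m + 1) * b ^ (m + 2) := mul_comm _ _
    _ ≤ _ := h
    _ = _ := by ring

/-- Equality in `R(Π K) ≤ R(K)`: `K` is a translate of a multiple of `Π² K`. -/
theorem eq_of_ratio_le {K : Set (E (m + 2))} (hK : Cen K) (h : ratio K ≤ ratio (projBody K)) :
    ∃ (g : E (m + 2)) (s : ℝ), 0 < s ∧ K = g +ᵥ s • wulff (projVol (projBody K)) ∧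
      s * (volume (projBody K)).toReal = (volume K).toReal := by
  obtain ⟨a, b, ha0, hb0, ha, hb, hab⟩ := roots hK
  obtain ⟨hPc, hp⟩ := sublin_projBody2 hK
  have hP := vol_pos hPc
  set P := (volume (projBody K)).toReal
  have heq : a ^ (m + 1) * b = P := by
    refine le_antisymm hab ?_
    simp only [ratio, show m + 2 - 1 = m + 1 by omega] at h
    rw [div_le_div_iff₀ (pow_pos (vol_pos hK) _) (pow_pos hP _), ← ha, ← hb] at h
    refine (pow_le_pow_iff_left₀ hP.le (by positivity) (show m + 2 ≠ 0 by omega)).1 ?_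
    calc P ^ (m + 2) = P * P ^ (m + 1) := by ring
      _ ≤ _ := h
      _ = _ := by rw [mul_pow, ← pow_mul, ← pow_mul]; ring
  set s := a / b with hs
  have hs0 : 0 < s := by positivity
  have hsP : s * P = (volume K).toReal := by
    rw [hs, ← heq, ← ha]; field_simp; ring
  set L := s • wulff (projVol (projBody K)) with hL
  have hLb : Body L := hp.cen.toBody.smul s
  have hLne : L.Nonempty := ⟨_, smul_mem_smul_set (interior_subset hp.cen.int)⟩
  have hiL : (interior L).Nonempty := by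
    rw [hL, interior_smul₀ hs0.ne']; exact ⟨_, smul_mem_smul_set hp.cen.int⟩
  have hvL : (volume L).toReal = (volume K).toReal := by
    rw [hL, volume_smul hs0.le, show wulff (projVol (projBody K)) = projBody (projBody K) from rfl,
      ← hb, ← mul_pow, hs, div_mul_cancel₀ _ hb0.ne', ha]
  have hKne : K.Nonempty := ⟨0, interior_subset hK.int⟩
  set M := (1 / 2 : ℝ) • (K + L) with hM
  obtain ⟨c, hc0, hc⟩ := exists_root (n := m + 2) (by omega) (ENNReal.toReal_nonneg (a := volume M))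
  obtain ⟨Ls, hLs⟩ := exists_lip_supp hK.cpt hKne
  set phi := fun v => (supp K v + s * projVol (projBody K) v) / 2 with hphi
  have hphiL : ∀ l ∈ M, ∀ v, ⟪v, l⟫ ≤ phi v := by
    rintro _ ⟨_, ⟨k, hk, _, ⟨q, hq, rfl⟩, rfl⟩, rfl⟩ v
    show ⟪v, (1 / 2 : ℝ) • (k + s • q)⟫ ≤ _
    rw [inner_smul_right, inner_add_right, inner_smul_right, real_inner_comm q v]
    have h1 := (supp_spec hK.cpt hKne v).2 k hk
    have h2 := mul_le_mul_of_nonneg_left (hq v) hs0.le
    rw [hphi]
    linarith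
  have hphic : Continuous phi := (hLs.continuous.add (hp.continuous.const_mul s)).div_const 2
  have hmink := mink hK ((hK.cpt.add hLb.cpt).smul (1 / 2 : ℝ)) (hKne.add hLne).smul_set
    hphic hphiL ha0.le hc0 ha hc.le
  have hJ : J K phi = (J K (supp K) + s * J K (projVol (projBody K))) / 2 := by
    simp only [J, hphi, ← mul_div_assoc, mul_add, integral_div, mul_left_comm _ s]
    rw [integral_add (hK.integrable_comp hLs.continuous)
      ((hK.integrable_comp hp.continuous).const_mul s), integral_const_mul]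
    ring
  have hJK : J K (supp K) ≤ (m + 2 : ℝ) * (volume K).toReal := by
    refine (J_mono hK hLs.continuous continuous_const fun x => ?_).trans
      (le_of_eq ((J_const hK 1).trans (by push_cast; ring)))
    obtain ⟨k, hk, e⟩ := (supp_spec hK.cpt hKne (gr K x)).1
    rw [e]
    exact hK.gr_le_one x hk
  have hca : c ≤ a := by
    have h1 := mul_le_mul_of_nonneg_left (J_proj_le hK) hs0.le
    rw [hJ] at hmink
    push_cast at hmink
    have h2 : (m + 2 : ℝ) * (a ^ (m + 1) * c) ≤ (m + 2 : ℝ) * (a ^ (m + 1) * a) := by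
      rw [show a ^ (m + 1) * a = a ^ (m + 2) by ring, ha]
      rw [mul_left_comm s, hsP] at h1
      linarith
    exact le_of_mul_le_mul_left (le_of_mul_le_mul_left h2 (by positivity)) (by positivity)
  obtain ⟨g, hg⟩ := bm_eq (Nat.succ_pos m) hK.toBody hLb ⟨0, hK.int⟩ hiL hvL
    (by rw [← hM, ← hc, ← ha]; exact pow_le_pow_left₀ hc0 hca _)
  exact ⟨g, s, hs0, hg, hsP⟩

/-- `K` minimises the normalised projection volume. -/
def IsMin (K : Set (E N)) : Prop :=
  ∀ L : Set (E N), Body L → (interior L).Nonempty → ratio K ≤ ratio L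

/-- A minimiser is a translate of a symmetric minimiser `Z` with `h_{Π²Z} = (|ΠZ|/|Z|) h_Z`. -/
theorem minimiser_structure {K : Set (E (m + 2))} (hK : Body K) (hi : (interior K).Nonempty)
    (hmin : IsMin K) : ∃ (g : E (m + 2)) (Z : Set (E (m + 2))), K = g +ᵥ Z ∧ Cen Z ∧
      (∀ x ∈ Z, -x ∈ Z) ∧ IsMin Z ∧ ∀ u, projVol (projBody Z) u =
        (volume (projBody Z)).toReal / (volume Z).toReal * supp Z u := by
  obtain ⟨z, hK'⟩ := exists_cen hK hi
  obtain ⟨hPc, hp⟩ := sublin_projBody2 hK'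
  obtain ⟨g, s, hs, hg, -⟩ := eq_of_ratio_le hK'
    ((ratio_vadd hK z).le.trans (hmin _ hPc.toBody ⟨0, hPc.int⟩))
  set Z := s • wulff (projVol (projBody (z +ᵥ K))) with hZdef
  have hZ : Cen Z := ⟨hp.cen.toBody.smul s, by
    rw [hZdef, interior_smul₀ hs.ne']
    exact ⟨0, hp.cen.int, smul_zero s⟩⟩
  have hZs : ∀ x ∈ Z, -x ∈ Z := by
    rintro _ ⟨q, hq, rfl⟩
    refine ⟨-q, fun v => ?_, smul_neg s q⟩
    rw [inner_neg_left, ← inner_neg_right, ← projVol_neg]
    exact hq (-v)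
  have hKZ : K = (g - z) +ᵥ Z := by
    rw [sub_eq_add_neg, add_comm g (-z), ← vadd_vadd, ← hg, neg_vadd_vadd]
  have hminZ : IsMin Z := fun L hL hLi => by
    have h := hmin L hL hLi
    rwa [hKZ, ratio_vadd hZ.toBody] at h
  obtain ⟨hP2, hp2⟩ := sublin_projBody2 hZ
  obtain ⟨g2, s2, hs2, hg2, hsP⟩ := eq_of_ratio_le hZ (hminZ _ hP2.toBody ⟨0, hP2.int⟩)
  refine ⟨g - z, Z, hKZ, hZ, hZs, hminZ, fun u => ?_⟩
  have hne : (s2 • wulff (projVol (projBody Z))).Nonempty :=
    ⟨_, smul_mem_smul_set (interior_subset hp2.cen.int)⟩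
  have hsupp : ∀ v, supp Z v = ⟪v, g2⟫ + s2 * projVol (projBody Z) v := fun v => by
    conv_lhs => rw [hg2]
    rw [supp_vadd (hp2.cen.cpt.smul s2) hne, Sublin.supp_smul_wulff hp2 hs2.le]
  have hev : supp Z (-u) = supp Z u := by
    have hne' : Z.Nonempty := ⟨0, interior_subset hZ.int⟩
    obtain ⟨⟨k, hk, e⟩, h⟩ := supp_spec hZ.cpt hne' (-u)
    obtain ⟨⟨k', hk', e'⟩, h'⟩ := supp_spec hZ.cpt hne' u
    refine le_antisymm ?_ ?_
    · rw [e, inner_neg_left, ← inner_neg_right]; exact h' _ (hZs k hk)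
    · have := h _ (hZs k' hk')
      rw [inner_neg_neg] at this
      rwa [e']
  have h1 := hsupp (-u)
  rw [hev, hsupp u, projVol_neg, inner_neg_left] at h1
  have h2 : ⟪u, g2⟫ = 0 := by linarith
  rw [hsupp u, h2, zero_add, ← mul_assoc, div_mul_eq_mul_div, ← hsP]
  field_simp [hs2.ne', (vol_pos hP2).ne']

/-- A symmetric minimiser exists. -/
theorem exists_symm_minimiser (m : ℕ) : ∃ Z : Set (E (m + 2)), Cen Z ∧ (∀ x ∈ Z, -x ∈ Z) ∧
    IsMin Z ∧ ∀ u, projVol (projBody Z) u =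
      (volume (projBody Z)).toReal / (volume Z).toReal * supp Z u := by
  obtain ⟨K, hK, hmin⟩ := exists_minimiser (m + 1)
  obtain ⟨g, Z, -, h⟩ := minimiser_structure hK.toBody ⟨0, hK.int⟩ hmin
  exact ⟨Z, h⟩

/-- At a symmetric minimiser every direction computes the ratio. -/
theorem ratio_mul_eq {Z : Set (E (m + 2))} (hZ : Cen Z)
    (h : ∀ u, projVol (projBody Z) u =
      (volume (projBody Z)).toReal / (volume Z).toReal * supp Z u) (u : E (m + 2)) :
    ratio Z * ((volume Z).toReal ^ m * supp Z u) = projVol (projBody Z) u := by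
  have := vol_pos hZ
  rw [h u, ratio, show m + 2 - 1 = m + 1 by omega, pow_succ]
  field_simp

end Vale.Agent.P237.Full
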