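import Vale.Agent.P237.Main
import Vale.Agent.P237.Kappa

/-!
Position of a symmetric body: isotropic second moments, a touching ball, and the profile of the
slices orthogonal to the touching direction.
-/

open MeasureTheory Set Filter Topology Real Module
open scoped RealInnerProductSpace Pointwise ENNReal

namespace Vale.Agent.P237

variable {n N : ℕ}

lemma continuousOn_sq_inner (K : Set (E N)) (u : E N) : ContinuousOn (fun x => ⟪x, u⟫ ^ 2) K := by
  fun_prop

lemma integral_image_linear (T : E N ≃L[ℝ] E N) {K : Set (E N)} (hK : MeasurableSet K)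
    (g : E N → ℝ) :
    ∫ x in T '' K, g x = |(T : E N →L[ℝ] E N).det| * ∫ x in K, g (T x) := by
  rw [integral_image_eq_integral_abs_det_fderiv_smul volume hK
    (fun x _ => (T.hasFDerivAt (x := x)).hasFDerivWithinAt) T.injective.injOn, ← integral_const_mul]
  simp only [smul_eq_mul]

lemma Body.image {K : Set (E N)} (hK : Body K) (T : E N ≃L[ℝ] E N) : Body (T '' K) :=
  ⟨hK.conv.linear_image T.toLinearEquiv.toLinearMap, hK.cpt.image T.continuous⟩

lemma interior_image (T : E N ≃L[ℝ] E N) (K : Set (E N)) : interior (T '' K) = T '' interior K :=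
  (T.toHomeomorph.image_interior K).symm

/-- A linear image with equal second moments in all directions. -/
theorem exists_isotropic {K : Set (E N)} (hK : Body K) (hi : (interior K).Nonempty) :
    ∃ T : E N ≃L[ℝ] E N, ∀ u : E N, ‖u‖ = 1 →
      ∫ x in T '' K, ‖x‖ ^ 2 = N * ∫ x in T '' K, ⟪x, u⟫ ^ 2 := by
  have hint : ∀ f : E N → ℝ, Continuous f → IntegrableOn f K := fun f hf =>
    hf.continuousOn.integrableOn_compact hK.cpt
  have hintv : ∀ u : E N, IntegrableOn (fun x => ⟪x, u⟫ • x) K := fun u =>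
    (by fun_prop : Continuous fun x : E N => ⟪x, u⟫ • x).continuousOn.integrableOn_compact hK.cpt
  let A : E N →ₗ[ℝ] E N :=
    { toFun := fun u => ∫ x in K, ⟪x, u⟫ • x
      map_add' := fun u w => by
        simp only [inner_add_right, add_smul]
        exact integral_add (hintv u) (hintv w)
      map_smul' := fun c u => by
        simp only [inner_smul_right, mul_smul, RingHom.id_apply]
        exact integral_smul c _ }
  have hA : ∀ u w, ⟪A u, w⟫ = ∫ x in K, ⟪x, u⟫ * ⟪x, w⟫ := fun u w => by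
    show ⟪∫ x in K, ⟪x, u⟫ • x, w⟫ = _
    rw [real_inner_comm, ← integral_inner (hintv u)]
    refine integral_congr_ae (Eventually.of_forall fun x => ?_)
    show ⟪w, ⟪x, u⟫ • x⟫ = _
    rw [inner_smul_right, real_inner_comm x w]
  have hsym : A.IsSymmetric := fun u w => by
    rw [hA, real_inner_comm, hA]
    exact integral_congr_ae (Eventually.of_forall fun x => mul_comm _ _)
  have hpos : ∀ u : E N, u ≠ 0 → 0 < ⟪A u, u⟫ := by
    intro u hu
    rw [hA, setIntegral_pos_iff_support_of_nonneg_ae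
      (Eventually.of_forall fun x => mul_self_nonneg _) (hint _ (by fun_prop))]
    have hnull : volume ((LinearMap.ker (innerₗ (E N) u) : Submodule ℝ (E N)) : Set (E N)) = 0 := by
      refine Measure.addHaar_submodule _ _ fun h => hu ?_
      have : u ∈ LinearMap.ker (innerₗ (E N) u) := h ▸ Submodule.mem_top
      simpa using this
    refine lt_of_lt_of_le ?_ (measure_mono (show interior K \
      ((LinearMap.ker (innerₗ (E N) u) : Submodule ℝ (E N)) : Set (E N)) ⊆ _ from
        fun x hx => ⟨?_, interior_subset hx.1⟩))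
    · rw [measure_sdiff_null hnull]
      exact isOpen_interior.measure_pos volume hi
    · have h : ⟪x, u⟫ ≠ 0 := fun h => hx.2 (by simp [real_inner_comm x u, h])
      exact mul_ne_zero h h
  have hfin : finrank ℝ (E N) = N := finrank_euclideanSpace_fin
  set b := hsym.eigenvectorBasis hfin with hb
  set l := hsym.eigenvalues hfin with hl
  have hAb : ∀ i, A (b i) = l i • b i := fun i => by
    rw [hb, hl, hsym.apply_eigenvectorBasis]
    rfl
  have hlpos : ∀ i, 0 < l i := fun i => by
    have h := hpos (b i) (b.orthonormal.ne_zero i)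
    rwa [hAb, real_inner_smul_left, real_inner_self_eq_norm_sq, b.orthonormal.1 i, one_pow,
      mul_one] at h
  set s : Fin N → ℝ := fun i => (√(l i))⁻¹ with hs
  have hs0 : ∀ i, 0 < s i := fun i => inv_pos.2 (Real.sqrt_pos.2 (hlpos i))
  let T₀ : E N →ₗ[ℝ] E N := ∑ i, s i • (innerₗ (E N) (b i)).smulRight (b i)
  have hT₀ : ∀ x, T₀ x = ∑ i, (s i * ⟪b i, x⟫) • b i := fun x => by
    simp [T₀, smul_smul]
  have hcoord : ∀ x i, ⟪b i, T₀ x⟫ = s i * ⟪b i, x⟫ := fun x i => by
    rw [hT₀, inner_sum, Finset.sum_eq_single i]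
    · rw [inner_smul_right, real_inner_self_eq_norm_sq, b.orthonormal.1 i, one_pow, mul_one]
    · intro j _ hji
      rw [inner_smul_right, b.orthonormal.2 (Ne.symm hji), mul_zero]
    · simp
  have hinj : Function.Injective T₀ := fun x y h => by
    refine b.repr.injective ?_
    ext i
    have h1 : ⟪b i, T₀ x⟫ = ⟪b i, T₀ y⟫ := by rw [h]
    rw [hcoord, hcoord] at h1
    simpa [b.repr_apply_apply] using mul_left_cancel₀ (hs0 i).ne' h1
  set T := (LinearEquiv.ofInjectiveEndo T₀ hinj).toContinuousLinearEquiv with hT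
  have hTa : ∀ x, T x = T₀ x := fun x => by simp [hT]
  have hmom : ∀ u, ∫ x in K, ⟪T x, u⟫ ^ 2 = ‖u‖ ^ 2 := by
    intro u
    have hself : ∀ x, ⟪T x, u⟫ = ⟪x, T₀ u⟫ := fun x => by
      rw [← b.sum_inner_mul_inner (T x) u, ← b.sum_inner_mul_inner x (T₀ u)]
      refine Finset.sum_congr rfl fun i _ => ?_
      rw [hTa, real_inner_comm (b i), hcoord, hcoord, real_inner_comm (b i) x]
      ring
    simp only [hself, sq]
    rw [← hA, ← sq, ← b.sum_inner_mul_inner (A (T₀ u)) (T₀ u), ← b.sum_sq_inner_left u]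
    refine Finset.sum_congr rfl fun i _ => ?_
    rw [real_inner_comm (b i), ← hsym, hAb, real_inner_smul_left, hcoord, real_inner_comm (b i) u]
    have e : l i * s i ^ 2 = 1 := by
      rw [hs, inv_pow, Real.sq_sqrt (hlpos i).le, mul_inv_cancel₀ (hlpos i).ne']
    linear_combination ⟪b i, u⟫ ^ 2 * e
  refine ⟨T, fun u hu => ?_⟩
  rw [integral_image_linear T hK.cpt.measurableSet, integral_image_linear T hK.cpt.measurableSet,
    hmom, hu, one_pow, mul_one, mul_comm (N : ℝ)]
  congr 1
  calc ∫ x in K, ‖T x‖ ^ 2 = ∫ x in K, ∑ i, ⟪T x, b i⟫ ^ 2 :=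
        integral_congr_ae (Eventually.of_forall fun x => (b.sum_sq_inner_left (T x)).symm)
    _ = ∑ i, ∫ x in K, ⟪T x, b i⟫ ^ 2 :=
        integral_finsetSum _ fun i _ => hint _ (by fun_prop)
    _ = N := by simp [hmom, b.orthonormal.1]

/-- A direction of least width touches an inscribed ball. -/
theorem exists_inball {K : Set (E (n + 1))} (hK : Cen K) :
    ∃ ν : E (n + 1), ‖ν‖ = 1 ∧ 0 < supp K ν ∧ Metric.closedBall 0 (supp K ν) ⊆ K := by
  have hne : K.Nonempty := ⟨0, interior_subset hK.int⟩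
  obtain ⟨L, hL⟩ := exists_lip_supp hK.cpt hne
  obtain ⟨ν, hν, hmin⟩ := (isCompact_sphere (0 : E (n + 1)) 1).exists_isMinOn
    (NormedSpace.sphere_nonempty.2 zero_le_one) hL.continuous.continuousOn
  rw [mem_sphere_zero_iff_norm] at hν
  obtain ⟨e, he, hball⟩ := Metric.isOpen_iff.1 isOpen_interior 0 hK.int
  have hpos : 0 < supp K ν := by
    have hm : (e / 2) • ν ∈ K := interior_subset (hball (by
      rw [mem_ball_zero_iff, norm_smul, hν, mul_one, Real.norm_of_nonneg (by linarith)]
      linarith))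
    have h := (supp_spec hK.cpt hne ν).2 _ hm
    rw [inner_smul_right, real_inner_self_eq_norm_sq, hν] at h
    linarith
  refine ⟨ν, hν, hpos, fun x hx => ?_⟩
  rw [mem_closedBall_zero_iff] at hx
  by_contra hxK
  obtain ⟨f, c, hfc, hcx⟩ := geometric_hahn_banach_closed_point hK.conv hK.cpt.isClosed hxK
  set w := (InnerProductSpace.toDual ℝ (E (n + 1))).symm f with hw
  have hfw : ∀ y, f y = ⟪w, y⟫ := fun y => by rw [hw, InnerProductSpace.toDual_symm_apply]
  have hw0 : w ≠ 0 := fun h0 => by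
    have h1 := hfc 0 (interior_subset hK.int)
    rw [hfw, h0, inner_zero_left] at h1
    rw [hfw, h0, inner_zero_left] at hcx
    linarith
  have hm : supp K ν ≤ supp K (‖w‖⁻¹ • w) :=
    hmin (mem_sphere_zero_iff_norm.2 (norm_smul_inv_norm hw0))
  rw [supp_smul hK.cpt hne (inv_nonneg.2 (norm_nonneg w)), le_inv_mul_iff₀ (norm_pos_iff.2 hw0)] at hm
  obtain ⟨⟨k, hk, ek⟩, -⟩ := supp_spec hK.cpt hne w
  have h1 := hfc k hk
  rw [hfw, ← ek] at h1
  rw [hfw] at hcx
  have h2 := real_inner_le_norm w x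
  have h3 := mul_le_mul_of_nonneg_left hx (norm_nonneg w)
  linarith

/-- The second moment of a ball. -/
lemma ball_moment (hn : 0 < n) {R : ℝ} (hR : 0 ≤ R) :
    ∫ y in Metric.closedBall (0 : E n) R, ‖y‖ ^ 2 =
      (n : ℝ) / (n + 2) * Statement.ballVol n * R ^ (n + 2) := by
  haveI : Nonempty (Fin n) := ⟨⟨0, hn⟩⟩
  haveI : Nontrivial (E n) := Module.nontrivial_of_finrank_pos (R := ℝ) (by rw [finrank_euclideanSpace_fin]; exact hn)
  have e : (fun y : E n => (Metric.closedBall (0 : E n) R).indicator (fun y => ‖y‖ ^ 2) y) =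
      fun y => (fun r : ℝ => if r ≤ R then r ^ 2 else 0) ‖y‖ := by
    funext y
    by_cases h : ‖y‖ ≤ R <;> simp [indicator, h]
  rw [← integral_indicator measurableSet_closedBall, e,
    integral_fun_norm_addHaar volume (fun r : ℝ => if r ≤ R then r ^ 2 else 0),
    finrank_euclideanSpace_fin]
  have hI : ∫ r in Ioi (0 : ℝ), r ^ (n - 1) • (if r ≤ R then r ^ 2 else 0) =
      R ^ (n + 2) / ((n : ℝ) + 2) := by
    have h1 : ∀ r : ℝ, r ^ (n - 1) • (if r ≤ R then r ^ 2 else 0) =
        (Iic R).indicator (fun r => r ^ (n + 1)) r := fun r => by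
      by_cases h : r ≤ R
      · rw [if_pos h, indicator_of_mem (show r ∈ Iic R from h), smul_eq_mul, ← pow_add]
        congr 1; omega
      · simp [indicator, h]
    simp only [h1]
    rw [setIntegral_indicator measurableSet_Iic, Ioi_inter_Iic, ← intervalIntegral.integral_of_le hR,
      integral_pow]
    push_cast
    rw [zero_pow (by omega), sub_zero, show ((n : ℝ) + 1 + 1) = n + 2 by ring]
  rw [hI, nsmul_eq_mul, smul_eq_mul, Statement.ballVol, Statement.vol, ← measureReal_def,
    measureReal_def, measureReal_def, Measure.addHaar_closedBall_eq_addHaar_ball]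
  ring

/-- Among sets of given volume the centred ball has the least second moment. -/
lemma bathtub {A : Set (E n)} (hA : IsCompact A) {R : ℝ} (hR : 0 ≤ R)
    (hvol : (volume (Metric.closedBall (0 : E n) R)).toReal = (volume A).toReal) :
    ∫ y in Metric.closedBall (0 : E n) R, ‖y‖ ^ 2 ≤ ∫ y in A, ‖y‖ ^ 2 := by
  set B := Metric.closedBall (0 : E n) R with hB
  have hBc : IsCompact B := isCompact_closedBall _ _
  set g : E n → ℝ := fun y => ‖y‖ ^ 2 - R ^ 2 with hg
  have hgi : ∀ {S : Set (E n)}, IsCompact S → IntegrableOn g S := fun hS =>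
    (by fun_prop : Continuous g).continuousOn.integrableOn_compact hS
  have hsq : ∀ {S : Set (E n)}, IsCompact S → IntegrableOn (fun y : E n => ‖y‖ ^ 2) S := fun hS =>
    (by fun_prop : Continuous fun y : E n => ‖y‖ ^ 2).continuousOn.integrableOn_compact hS
  have key : ∀ S : Set (E n), IsCompact S →
      ∫ y in S, g y = (∫ y in S, ‖y‖ ^ 2) - (volume S).toReal * R ^ 2 := fun S hS => by
    rw [hg, integral_sub (hsq hS) (integrableOn_const hS.measure_lt_top.ne), setIntegral_const,
      smul_eq_mul, measureReal_def]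
  have hle : ∫ y in B, g y ≤ ∫ y in A, g y := by
    rw [← integral_indicator hBc.measurableSet, ← integral_indicator hA.measurableSet]
    refine integral_mono ((integrable_indicator_iff hBc.measurableSet).2 (hgi hBc))
      ((integrable_indicator_iff hA.measurableSet).2 (hgi hA)) fun y => ?_
    have hyB : y ∈ B ↔ ‖y‖ ≤ R := by rw [hB, mem_closedBall_zero_iff]
    by_cases h : y ∈ B
    · have h0 : g y ≤ 0 := by
        rw [hg]; nlinarith [norm_nonneg y, hyB.1 h]
      by_cases h' : y ∈ A <;> simp [h, h', h0]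
    · rw [indicator_of_notMem h]
      by_cases h' : y ∈ A
      · rw [indicator_of_mem h', hg]
        have := not_le.1 (hyB.not.1 h)
        simp only
        nlinarith
      · rw [indicator_of_notMem h']
  rw [key B hBc, key A hA, hvol] at hle
  linarith

namespace Frame

variable {ν : E (n + 1)} (F : Frame ν) {K : Set (E (n + 1))}

lemma inner_axis_S (t : ℝ) (y : E n) : ⟪F.S (t, y), ν⟫ = t := by
  have h := F.inn t y 1 0
  rw [F.one] at h
  simpa using h

lemma norm_sq_S (t : ℝ) (y : E n) : ‖F.S (t, y)‖ ^ 2 = t ^ 2 + ‖y‖ ^ 2 := by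
  have h := F.inn t y t y
  simp only [real_inner_self_eq_norm_sq] at h
  rw [h]; ring

/-- Fubini along the axis. -/
lemma integral_slices (hK : IsCompact K) {g : E (n + 1) → ℝ} (hg : Continuous g) :
    Integrable (fun t => ∫ y in F.slice K t, g (F.S (t, y))) ∧
      ∫ x in K, g x = ∫ t, ∫ y in F.slice K t, g (F.S (t, y)) := by
  have hm := hK.measurableSet
  have hA : IsCompact (F.S ⁻¹' K) := F.S.toHomeomorph.isCompact_preimage.2 hK
  have hind : Integrable ((F.S ⁻¹' K).indicator fun p => g (F.S p)) :=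
    (integrable_indicator_iff hA.measurableSet).2
      ((hg.comp F.S.continuous).continuousOn.integrableOn_compact hA)
  have hsl : ∀ t, (fun y => (F.S ⁻¹' K).indicator (fun p => g (F.S p)) (t, y)) =
      (F.slice K t).indicator fun y => g (F.S (t, y)) := fun t => by
    funext y
    by_cases h : F.S (t, y) ∈ K <;> simp [indicator, slice, h]
  have hms : ∀ t, MeasurableSet (F.slice K t) := fun t =>
    hm.preimage (F.S.continuous.comp (continuous_const.prodMk continuous_id)).measurable
  rw [Measure.volume_eq_prod] at hind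
  have h1 := hind.integral_prod_left
  have h2 := integral_prod _ hind
  simp only [hsl, integral_indicator (hms _)] at h1 h2
  refine ⟨h1, ?_⟩
  rw [← h2, ← Measure.volume_eq_prod, integral_indicator hA.measurableSet]
  exact (F.mp.setIntegral_preimage_emb F.S.toHomeomorph.measurableEmbedding g K).symm

/-- The radius of the ball with the volume of the slice. -/
noncomputable def rad (K : Set (E (n + 1))) (t : ℝ) : ℝ :=
  ((volume (F.slice K t)).toReal / Statement.ballVol n) ^ ((n : ℝ)⁻¹)

lemma rad_nonneg (hn : 0 < n) (t : ℝ) : 0 ≤ F.rad K t := by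
  obtain ⟨k, rfl⟩ : ∃ k, n = k + 1 := ⟨n - 1, by omega⟩
  exact Real.rpow_nonneg (div_nonneg ENNReal.toReal_nonneg (ballVol_pos k).le) _

lemma volume_slice_eq (hn : 0 < n) (t : ℝ) :
    (volume (F.slice K t)).toReal = Statement.ballVol n * F.rad K t ^ n := by
  obtain ⟨k, rfl⟩ : ∃ k, n = k + 1 := ⟨n - 1, by omega⟩
  rw [rad, Real.rpow_inv_natCast_pow (div_nonneg ENNReal.toReal_nonneg (ballVol_pos k).le)
    (Nat.succ_ne_zero k), mul_div_cancel₀ _ (ballVol_pos k).ne']

lemma volume_ball_eq {R : ℝ} (hR : 0 ≤ R) :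
    (volume (Metric.closedBall (0 : E n) R)).toReal = Statement.ballVol n * R ^ n := by
  rw [Statement.ballVol, Statement.vol, Measure.addHaar_closedBall' _ _ hR, finrank_euclideanSpace_fin,
    ENNReal.toReal_mul, ENNReal.toReal_ofReal (pow_nonneg hR _), mul_comm]

/-- The moment inequality of the profile. -/
lemma rad_moment (hn : 0 < n) (hK : Body K)
    (hiso : ∫ x in K, ‖x‖ ^ 2 = (n + 1 : ℝ) * ∫ x in K, ⟪x, ν⟫ ^ 2) :
    Integrable (fun t => F.rad K t ^ (n + 2)) ∧ Integrable (fun t => t ^ 2 * F.rad K t ^ n) ∧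
      ∫ t, F.rad K t ^ (n + 2) ≤ (n + 2 : ℝ) * ∫ t, t ^ 2 * F.rad K t ^ n := by
  have hκ : 0 < Statement.ballVol n := by
    obtain ⟨k, rfl⟩ : ∃ k, n = k + 1 := ⟨n - 1, by omega⟩
    exact ballVol_pos k
  obtain ⟨i1, e1⟩ := F.integral_slices hK.cpt (g := fun x => ⟪x, ν⟫ ^ 2) (by fun_prop)
  obtain ⟨i2, e2⟩ := F.integral_slices hK.cpt (g := fun x => ‖x‖ ^ 2) (by fun_prop)
  have hc := fun t => (F.slice_body hK t).cpt
  have a1 : ∀ t, ∫ y in F.slice K t, ⟪F.S (t, y), ν⟫ ^ 2 =
      Statement.ballVol n * (t ^ 2 * F.rad K t ^ n) := fun t => by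
    simp only [F.inner_axis_S, setIntegral_const, smul_eq_mul, measureReal_def, F.volume_slice_eq hn]
    ring
  have a2 : ∀ t, ∫ y in F.slice K t, ‖F.S (t, y)‖ ^ 2 =
      Statement.ballVol n * (t ^ 2 * F.rad K t ^ n) + ∫ y in F.slice K t, ‖y‖ ^ 2 := fun t => by
    simp only [F.norm_sq_S]
    rw [integral_add ((continuous_const (y := t ^ 2)).continuousOn.integrableOn_compact (hc t))
      ((by fun_prop : Continuous fun y : E n => ‖y‖ ^ 2).continuousOn.integrableOn_compact (hc t)),
      setIntegral_const, smul_eq_mul, measureReal_def, F.volume_slice_eq hn]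
    ring
  simp only [a1] at i1 e1
  simp only [a2] at i2 e2
  have b : ∀ t, (n : ℝ) / (n + 2) * Statement.ballVol n * F.rad K t ^ (n + 2) ≤
      ∫ y in F.slice K t, ‖y‖ ^ 2 := fun t => by
    rw [← ball_moment hn (F.rad_nonneg hn t)]
    exact bathtub (hc t) (F.rad_nonneg hn t)
      ((volume_ball_eq (F.rad_nonneg hn t)).trans (F.volume_slice_eq hn t).symm)
  have i2' : Integrable fun t => ∫ y in F.slice K t, ‖y‖ ^ 2 :=
    (i2.sub i1).congr (Eventually.of_forall fun t => by simp)
  have i4 : Integrable fun t => t ^ 2 * F.rad K t ^ n := by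
    refine (i1.div_const (Statement.ballVol n)).congr (Eventually.of_forall fun t => ?_)
    simp only
    field_simp
  have hmeas : Measurable fun t => F.rad K t ^ (n + 2) := by
    have : Measurable fun t => (volume (F.slice K t)).toReal :=
      (measurable_measure_prodMk_left
        (hK.cpt.measurableSet.preimage F.S.continuous.measurable)).ennreal_toReal
    exact ((this.div_const _).pow_const _).pow_const _
  have i3 : Integrable fun t => F.rad K t ^ (n + 2) := by
    refine (i2'.div_const ((n : ℝ) / (n + 2) * Statement.ballVol n)).mono' hmeas.aestronglyMeasurable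
      (Eventually.of_forall fun t => ?_)
    rw [Real.norm_of_nonneg (pow_nonneg (F.rad_nonneg hn t) _), le_div_iff₀' (by positivity)]
    exact b t
  refine ⟨i3, i4, ?_⟩
  rw [e2, e1, integral_add i1 i2', integral_const_mul] at hiso
  have h5 : (n : ℝ) / (n + 2) * Statement.ballVol n * ∫ t, F.rad K t ^ (n + 2) ≤
      (n : ℝ) * (Statement.ballVol n * ∫ t, t ^ 2 * F.rad K t ^ n) := by
    rw [← integral_const_mul]
    exact (integral_mono (i3.const_mul _) i2' b).trans (le_of_eq (by linarith))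
  have hn' : (0 : ℝ) < n := by exact_mod_cast hn
  have h6 : (n : ℝ) * Statement.ballVol n / (n + 2) * ∫ t, F.rad K t ^ (n + 2) ≤
      (n : ℝ) * Statement.ballVol n / (n + 2) * ((n + 2 : ℝ) * ∫ t, t ^ 2 * F.rad K t ^ n) := by
    calc _ = (n : ℝ) / (n + 2) * Statement.ballVol n * ∫ t, F.rad K t ^ (n + 2) := by ring
      _ ≤ _ := h5
      _ = _ := by field_simp
  exact le_of_mul_le_mul_left h6 (by positivity)

lemma rad_concave (hn : 0 < n) (hK : Body K) {a b : ℝ}
    (hne : ∀ t ∈ Icc a b, (F.slice K t).Nonempty) : ConcaveOn ℝ (Icc a b) (F.rad K) := by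
  refine ⟨convex_Icc _ _, fun s hs t ht p q hp hq hpq => ?_⟩
  simp only [smul_eq_mul]
  have hκ : 0 < Statement.ballVol n := by
    obtain ⟨k, rfl⟩ : ∃ k, n = k + 1 := ⟨n - 1, by omega⟩
    exact ballVol_pos k
  obtain ⟨c, hc0, hc⟩ := exists_root hn.ne' hκ.le
  have hc' : 0 < c := hc0.lt_of_ne' fun h => by rw [h, zero_pow hn.ne'] at hc; linarith
  have hr := fun u => F.rad_nonneg (K := K) hn u
  have hvol : ∀ u, (c * F.rad K u) ^ n = (volume (F.slice K u)).toReal := fun u => by
    rw [mul_pow, hc, F.volume_slice_eq hn]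
  have hsub : p • F.slice K s + q • F.slice K t ⊆ F.slice K (p * s + q * t) := by
    rintro _ ⟨_, ⟨y, hy, rfl⟩, _, ⟨z, hz, rfl⟩, rfl⟩
    have h := hK.conv hy hz hp hq hpq
    rw [← map_smul, ← map_smul, ← map_add] at h
    exact h
  have h := bm ((F.slice_body hK s).cpt.smul p) ((F.slice_body hK t).cpt.smul q)
    (hne s hs).smul_set (hne t ht).smul_set (mul_nonneg hp (mul_nonneg hc0 (hr s)))
    (mul_nonneg hq (mul_nonneg hc0 (hr t))) (by rw [volume_smul hp, mul_pow, hvol])
    (by rw [volume_smul hq, mul_pow, hvol])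
  have h2 : (c * (p * F.rad K s + q * F.rad K t)) ^ n ≤ (c * F.rad K (p * s + q * t)) ^ n := by
    rw [hvol, show c * (p * F.rad K s + q * F.rad K t) = p * (c * F.rad K s) + q * (c * F.rad K t) by
      ring]
    exact h.trans (ENNReal.toReal_mono (F.slice_body hK _).cpt.measure_lt_top.ne (measure_mono hsub))
  exact le_of_mul_le_mul_left
    ((pow_le_pow_iff_left₀ (mul_nonneg hc0 (add_nonneg (mul_nonneg hp (hr s)) (mul_nonneg hq (hr t))))
      (mul_nonneg hc0 (hr _)) hn.ne').1 h2) hc'

lemma slice_neg (hs : ∀ x ∈ K, -x ∈ K) (t : ℝ) : F.slice K (-t) = -F.slice K t := by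
  ext y
  simp only [slice, mem_ofPred_eq, Set.mem_neg]
  have e : F.S (t, -y) = -F.S (-t, y) := by rw [← map_neg, Prod.neg_mk, neg_neg]
  rw [e]
  exact ⟨fun h => hs _ h, fun h => by simpa using hs _ h⟩

lemma rad_neg (hs : ∀ x ∈ K, -x ∈ K) (t : ℝ) : F.rad K (-t) = F.rad K t := by
  simp only [rad, F.slice_neg hs, Measure.measure_neg]

lemma rad_eq_zero (hn : 0 < n) {t : ℝ} (h : F.slice K t = ∅) : F.rad K t = 0 := by
  simp [rad, h, hn.ne']

lemma le_rad (hn : 0 < n) (hK : Body K) {r t : ℝ} (hball : Metric.closedBall 0 r ⊆ K)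
    (ht : |t| ≤ r) : √(r ^ 2 - t ^ 2) ≤ F.rad K t := by
  have hsub : Metric.closedBall (0 : E n) √(r ^ 2 - t ^ 2) ⊆ F.slice K t := fun y hy => by
    refine hball ?_
    rw [mem_closedBall_zero_iff] at hy ⊢
    have h0 : 0 ≤ r ^ 2 - t ^ 2 := by nlinarith [abs_nonneg t, sq_abs t]
    have h1 := pow_le_pow_left₀ (norm_nonneg _) hy 2
    rw [Real.sq_sqrt h0] at h1
    refine (pow_le_pow_iff_left₀ (norm_nonneg _) (le_trans (abs_nonneg t) ht) two_ne_zero).1 ?_
    rw [F.norm_sq_S]
    linarith
  have h := ENNReal.toReal_mono (F.slice_body hK t).cpt.measure_lt_top.ne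
    (measure_mono (μ := volume) hsub)
  rw [volume_ball_eq (Real.sqrt_nonneg _), F.volume_slice_eq hn] at h
  obtain ⟨k, rfl⟩ : ∃ k, n = k + 1 := ⟨n - 1, by omega⟩
  exact (pow_le_pow_iff_left₀ (Real.sqrt_nonneg _) (F.rad_nonneg hn t) (Nat.succ_ne_zero k)).1
    (le_of_mul_le_mul_left h (ballVol_pos k))

end Frame

/-- A linear image whose profile along a touching direction lies above the profile of the ball and
satisfies the moment inequality. -/
theorem exists_profile (hn : 0 < n) {K : Set (E (n + 1))} (hK : Body K)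
    (hi : (interior K).Nonempty) (hs : ∀ x ∈ K, -x ∈ K) :
    ∃ (T : E (n + 1) ≃L[ℝ] E (n + 1)) (ν : E (n + 1)) (F : Frame ν) (r : ℝ),
      Cen (T '' K) ∧ (∀ x ∈ T '' K, -x ∈ T '' K) ∧ 0 < r ∧ supp (T '' K) ν = r ∧
      Metric.closedBall 0 r ⊆ T '' K ∧
      (∀ t, 0 ≤ F.rad (T '' K) t) ∧
      (∀ t, (volume (F.slice (T '' K) t)).toReal = Statement.ballVol n * F.rad (T '' K) t ^ n) ∧
      ConcaveOn ℝ (Icc (-r) r) (F.rad (T '' K)) ∧
      (∀ t, F.rad (T '' K) (-t) = F.rad (T '' K) t) ∧
      (∀ t, r < |t| → F.rad (T '' K) t = 0) ∧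
      (∀ t, |t| ≤ r → √(r ^ 2 - t ^ 2) ≤ F.rad (T '' K) t) ∧
      ∫ t in Icc (-r) r, F.rad (T '' K) t ^ (n + 2) ≤
        (n + 2 : ℝ) * ∫ t in Icc (-r) r, t ^ 2 * F.rad (T '' K) t ^ n := by
  obtain ⟨T, hT⟩ := exists_isotropic hK hi
  set L := T '' K with hL
  have hLs : ∀ x ∈ L, -x ∈ L := by
    rintro _ ⟨x, hx, rfl⟩
    exact ⟨-x, hs x hx, map_neg T x⟩
  have hLb : Body L := hK.image T
  have hLc : Cen L := ⟨hLb, by
    obtain ⟨y, hy⟩ := hi
    have hy1 : T y ∈ interior L := by rw [hL, interior_image]; exact ⟨y, hy, rfl⟩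
    have hy2 : -T y ∈ L := hLs _ (interior_subset hy1)
    have h := hLb.conv.combo_interior_self_mem_interior hy1 hy2 (show (0:ℝ) < 1 / 2 by norm_num)
      (show (0:ℝ) ≤ 1 / 2 by norm_num) (by norm_num)
    simpa [← smul_add] using h⟩
  obtain ⟨ν, hν, hr, hball⟩ := exists_inball hLc
  obtain ⟨F⟩ := exists_frame hν
  set r := supp L ν
  have hne0 : L.Nonempty := ⟨0, interior_subset hLc.int⟩
  have hout : ∀ t, r < |t| → F.slice L t = ∅ := fun t ht =>
    eq_empty_iff_forall_notMem.2 fun y hy => by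
      have h1 := (supp_spec hLc.cpt hne0 ν).2 _ hy
      have h2 := (supp_spec hLc.cpt hne0 ν).2 _ (hLs _ hy)
      rw [inner_neg_right, real_inner_comm, F.inner_axis_S] at h2
      rw [real_inner_comm, F.inner_axis_S] at h1
      rcases abs_cases t with ⟨e, _⟩ | ⟨e, _⟩ <;> rw [e] at ht <;> linarith
  have hne : ∀ t ∈ Icc (-r) r, (F.slice L t).Nonempty := fun t ht => ⟨0, hball (by
    rw [mem_closedBall_zero_iff]
    refine (pow_le_pow_iff_left₀ (norm_nonneg _) hr.le two_ne_zero).1 ?_
    rw [F.norm_sq_S, norm_zero]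
    nlinarith [ht.1, ht.2])⟩
  have hzero : ∀ t, r < |t| → F.rad L t = 0 := fun t ht => F.rad_eq_zero hn (hout t ht)
  refine ⟨T, ν, F, r, hLc, hLs, hr, rfl, hball, fun t => F.rad_nonneg hn t,
    F.volume_slice_eq hn, F.rad_concave hn hLb hne, F.rad_neg hLs, hzero,
    fun t ht => F.le_rad hn hLb hball ht, ?_⟩
  have hiso : ∫ x in L, ‖x‖ ^ 2 = (n + 1 : ℝ) * ∫ x in L, ⟪x, ν⟫ ^ 2 := by
    rw [hL, hT ν hν]; push_cast; ring
  have hz : ∀ t, t ∉ Icc (-r) r → F.rad L t = 0 := fun t ht => hzero t <| by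
    by_contra h
    exact ht (abs_le.1 (not_lt.1 h))
  rw [setIntegral_eq_integral_of_forall_compl_eq_zero (fun t ht => by simp [show F.rad (T '' K) t = 0 from hz t ht]),
    setIntegral_eq_integral_of_forall_compl_eq_zero (fun t ht => by simp [show F.rad (T '' K) t = 0 from hz t ht, hn.ne'])]
  exact (F.rad_moment hn hLb hiso).2.2

/-- If the profile is that of the ball, the body is the ball. -/
theorem eq_ball_of_rad (hn : 0 < n) {ν : E (n + 1)} (F : Frame ν) {K : Set (E (n + 1))}
    (hK : Body K) {r : ℝ} (hr : 0 < r) (hball : Metric.closedBall 0 r ⊆ K)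
    (hout : ∀ t, r < |t| → F.rad K t = 0)
    (hle : ∀ t, |t| ≤ r → F.rad K t ≤ √(r ^ 2 - t ^ 2)) :
    K = Metric.closedBall 0 r := by
  set B := Metric.closedBall (0 : E (n + 1)) r with hB
  have hBb : Body B := ⟨convex_closedBall _ _, isCompact_closedBall _ _⟩
  obtain ⟨i1, e1⟩ := F.volume_slices K hK.cpt
  obtain ⟨i2, e2⟩ := F.volume_slices B hBb.cpt
  have hκ : 0 < Statement.ballVol n := by
    obtain ⟨k, rfl⟩ : ∃ k, n = k + 1 := ⟨n - 1, by omega⟩
    exact ballVol_pos k
  have hvol : (volume K).toReal ≤ (volume B).toReal := by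
    rw [← e1, ← e2]
    refine integral_mono i1 i2 fun t => ?_
    show (volume (F.slice K t)).toReal ≤ (volume (F.slice B t)).toReal
    rw [F.volume_slice_eq hn, F.volume_slice_eq hn]
    refine mul_le_mul_of_nonneg_left (pow_le_pow_left₀ (F.rad_nonneg hn t) ?_ n) hκ.le
    rcases le_or_gt |t| r with h | h
    · exact (hle t h).trans (F.le_rad hn hBb subset_rfl h)
    · rw [hout t h]; exact F.rad_nonneg hn t
  refine Subset.antisymm (fun x hx => ?_) hball
  by_contra hxB
  have hint : (interior K).Nonempty := ⟨0, interior_mono hball (by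
    rw [hB, interior_closedBall _ hr.ne']; exact Metric.mem_ball_self hr)⟩
  have hx' : x ∈ closure (interior K) :=
    (hK.conv.closure_interior_eq_closure_of_nonempty_interior hint).symm ▸ subset_closure hx
  obtain ⟨y, hy1, hy2⟩ := mem_closure_iff.1 hx' _ Metric.isClosed_closedBall.isOpen_compl hxB
  have hpos : 0 < volume (interior K ∩ Bᶜ) :=
    (isOpen_interior.inter Metric.isClosed_closedBall.isOpen_compl).measure_pos volume ⟨y, hy2, hy1⟩
  have hlt : volume B + volume (interior K ∩ Bᶜ) ≤ volume K := by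
    rw [← measure_union (disjoint_compl_right.mono_right inter_subset_right)
      (isOpen_interior.measurableSet.inter measurableSet_closedBall.compl)]
    exact measure_mono (union_subset hball (inter_subset_left.trans interior_subset))
  rw [ENNReal.toReal_le_toReal hK.cpt.measure_lt_top.ne hBb.cpt.measure_lt_top.ne] at hvol
  have h0 : volume B + volume (interior K ∩ Bᶜ) ≤ volume B + 0 := by
    rw [add_zero]; exact hlt.trans hvol
  exact absurd ((ENNReal.add_le_add_iff_left hBb.cpt.measure_lt_top.ne).1 h0) (not_le.2 hpos)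

end Vale.Agent.P237
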