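import Vale.Agent.P237.Full.Minimiser
import Vale.Agent.P237.Full.Position
import Vale.Agent.P237.Full.Shadow
import Vale.Agent.P237.Full.Class

/-!
# P237: the induction step of Petty's inequality from a profile lemma, in any dimension
-/

open MeasureTheory Set Filter Topology Metric
open scoped RealInnerProductSpace Pointwise

namespace Vale.Agent.P237.Full

variable {m n N : ℕ}

/-- `κ_{m+1}^{m+2} / κ_{m+2}^m`, the conjectured constant in dimension `m + 2`. -/
noncomputable def petty (m : ℕ) : ℝ :=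
  Statement.ballVol (m + 1) ^ (m + 2) / Statement.ballVol (m + 2) ^ m

/-- The value of the profile functional at the semicircle. -/
noncomputable def profileConst (m : ℕ) : ℝ :=
  (∫ t in Icc (-1 : ℝ) 1, √(1 - t ^ 2) ^ m) ^ (m + 1) /
    (∫ t in Icc (-1 : ℝ) 1, √(1 - t ^ 2) ^ (m + 1)) ^ m

/-- The one-dimensional profile lemma in dimension `m + 2`. -/
def ProfileDim (m : ℕ) : Prop :=
  ∀ f : ℝ → ℝ, ConcaveOn ℝ (Icc (-1) 1) f → (∀ t, f (-t) = f t) →
    (∀ t ∈ Icc (-1 : ℝ) 1, √(1 - t ^ 2) ≤ f t) →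
    ∫ t in Icc (-1 : ℝ) 1, f t ^ (m + 3) ≤
      ((m : ℝ) + 3) * ∫ t in Icc (-1 : ℝ) 1, t ^ 2 * f t ^ (m + 1) →
    profileConst m * (∫ t in Icc (-1 : ℝ) 1, f t ^ (m + 1)) ^ m ≤
        (∫ t in Icc (-1 : ℝ) 1, f t ^ m) ^ (m + 1) ∧
      ((∫ t in Icc (-1 : ℝ) 1, f t ^ m) ^ (m + 1) =
          profileConst m * (∫ t in Icc (-1 : ℝ) 1, f t ^ (m + 1)) ^ m →
        ∀ t ∈ Ioo (-1 : ℝ) 1, f t ≤ √(1 - t ^ 2))

lemma proj_closed_ball {ν : E (n + 1)} (F : Frame ν) (r : ℝ) :
    F.proj '' closedBall 0 r = closedBall 0 r := by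
  ext y
  simp only [mem_image, mem_closedBall_zero_iff]
  constructor
  · rintro ⟨x, hx, rfl⟩
    refine le_trans ?_ hx
    refine (pow_le_pow_iff_left₀ (norm_nonneg _) (norm_nonneg _) two_ne_zero).1 ?_
    obtain ⟨⟨t, y⟩, rfl⟩ := F.S.surjective x
    rw [F.proj_S, F.norm_sq_S]
    nlinarith
  · intro hy
    exact ⟨F.S (0, y), by rwa [F.norm_hyper], F.proj_S 0 y⟩

lemma projVol_ball {r : ℝ} (hr : 0 ≤ r) (u : E (n + 1)) :
    projVol (closedBall (0 : E (n + 1)) r) u = ‖u‖ * (Statement.ballVol n * r ^ n) := by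
  rcases eq_or_ne u 0 with rfl | hu
  · simp [projVol]
  obtain ⟨F⟩ := exists_frame (ν := ‖u‖⁻¹ • u) (norm_smul_inv_norm hu)
  have h := F.projVol_eq (closedBall (0 : E (n + 1)) r) ‖u‖
  rw [smul_smul, mul_inv_cancel₀ (norm_ne_zero_iff.2 hu), one_smul] at h
  rw [h, proj_closed_ball F r, Frame.volume_ball_eq hr, abs_norm]

lemma projBody_ball {r : ℝ} (hr : 0 ≤ r) :
    projBody (closedBall (0 : E (n + 1)) r) = closedBall 0 (Statement.ballVol n * r ^ n) := by
  have hc : 0 ≤ Statement.ballVol n * r ^ n := by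
    rw [← Frame.volume_ball_eq hr]; exact ENNReal.toReal_nonneg
  ext y
  simp only [projBody, mem_ofPred_eq, projVol_ball hr, mem_closedBall_zero_iff]
  constructor
  · intro h
    rcases eq_or_ne y 0 with rfl | hy
    · simpa using hc
    have := h y
    rw [real_inner_self_eq_norm_sq] at this
    exact le_of_mul_le_mul_left (by linarith) (norm_pos_iff.2 hy)
  · intro h u
    calc ⟪y, u⟫ ≤ ‖y‖ * ‖u‖ := real_inner_le_norm _ _
      _ ≤ _ := by rw [mul_comm ‖u‖]; exact mul_le_mul_of_nonneg_right h (norm_nonneg _)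

lemma ratio_unit_ball (m : ℕ) : ratio (closedBall (0 : E (m + 2)) 1) = petty m := by
  have h1 := ballVol_pos' (Nat.succ_pos m)
  have h2 := ballVol_pos' (Nat.succ_pos (m + 1))
  rw [ratio, projBody_ball zero_le_one, Frame.volume_ball_eq zero_le_one,
    Frame.volume_ball_eq (by positivity), one_pow, mul_one, one_pow, mul_one, petty,
    show m + 2 - 1 = m + 1 by omega, pow_succ (Statement.ballVol (m + 2)) m]
  field_simp

/-- `κ_{k+1} = κ_k ∫ (1 - t²)^{k/2}`. -/
lemma integral_semi_pow {k : ℕ} (hk : 0 < k) :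
    Statement.ballVol k * ∫ t in Icc (-1 : ℝ) 1, √(1 - t ^ 2) ^ k = Statement.ballVol (k + 1) := by
  obtain ⟨ν, hν⟩ : (Metric.sphere (0 : E (k + 1)) 1).Nonempty :=
    NormedSpace.sphere_nonempty.2 zero_le_one
  rw [mem_sphere_zero_iff_norm] at hν
  obtain ⟨F⟩ := exists_frame hν
  have hB : Body (closedBall (0 : E (k + 1)) 1) := ⟨convex_closedBall _ _, isCompact_closedBall _ _⟩
  obtain ⟨-, he⟩ := F.rad_pow_integrable hk hB
  rw [Frame.volume_ball_eq zero_le_one, one_pow, mul_one] at he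
  rw [← he]
  congr 1
  have hrad : ∀ t, F.rad (closedBall (0 : E (k + 1)) 1) t =
      if t ∈ Icc (-1 : ℝ) 1 then √(1 - t ^ 2) else 0 := by
    intro t
    split_ifs with ht
    · have hs : F.slice (closedBall (0 : E (k + 1)) 1) t = closedBall 0 (√(1 - t ^ 2)) := by
        have h0 : 0 ≤ 1 - t ^ 2 := by nlinarith [ht.1, ht.2]
        ext y
        simp only [Frame.slice, mem_ofPred_eq, mem_closedBall_zero_iff]
        rw [← pow_le_pow_iff_left₀ (norm_nonneg _) zero_le_one two_ne_zero, F.norm_sq_S,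
          ← pow_le_pow_iff_left₀ (norm_nonneg y) (Real.sqrt_nonneg _) two_ne_zero, Real.sq_sqrt h0]
        constructor <;> intro h <;> linarith
      rw [Frame.rad, hs, Frame.volume_ball_eq (Real.sqrt_nonneg _),
        mul_div_cancel_left₀ _ (ballVol_pos' hk).ne',
        Real.pow_rpow_inv_natCast (Real.sqrt_nonneg _) hk.ne']
    · refine F.rad_eq_zero hk (eq_empty_iff_forall_notMem.2 fun y hy => ht ?_)
      have h1 : ‖F.S (t, y)‖ ≤ 1 := mem_closedBall_zero_iff.1 hy
      have h2 := pow_le_pow_left₀ (norm_nonneg _) h1 2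
      rw [F.norm_sq_S] at h2
      constructor <;> nlinarith [sq_nonneg ‖y‖]
  have h0 := setIntegral_eq_integral_of_forall_compl_eq_zero (s := Icc (-1 : ℝ) 1) (μ := volume)
    (f := fun t => F.rad (closedBall (0 : E (k + 1)) 1) t ^ k)
    (fun t ht => by simp only [hrad, if_neg ht, zero_pow hk.ne'])
  rw [← h0]
  exact setIntegral_congr_fun measurableSet_Icc fun t ht => by simp only [hrad, if_pos ht]

/-- The constant multiplies by the value of the profile functional. -/
lemma petty_succ_eq (j : ℕ) : petty (j + 1) = petty j * profileConst (j + 1) := by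
  have h1 := ballVol_pos' (Nat.succ_pos j)
  have h2 := ballVol_pos' (Nat.succ_pos (j + 1))
  have h3 := ballVol_pos' (Nat.succ_pos (j + 2))
  have e1 := integral_semi_pow (Nat.succ_pos j)
  have e2 := integral_semi_pow (Nat.succ_pos (j + 1))
  rw [show Statement.ballVol (j + 1) = Statement.ballVol (Nat.succ j) from rfl] at *
  simp only [Nat.succ_eq_add_one] at *
  set A := Statement.ballVol (j + 1) with hA
  set B := Statement.ballVol (j + 1 + 1) with hB
  set I₁ := ∫ t in Icc (-1 : ℝ) 1, √(1 - t ^ 2) ^ (j + 1)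
  set I₂ := ∫ t in Icc (-1 : ℝ) 1, √(1 - t ^ 2) ^ (j + 1 + 1)
  have hI₁ : I₁ ≠ 0 := fun h => h2.ne' (by rw [← e1, h, mul_zero])
  have hI₂ : I₂ ≠ 0 := fun h => h3.ne' (by
    rw [show Statement.ballVol (j + 2 + 1) = Statement.ballVol (j + 1 + 1 + 1) from rfl, ← e2, h,
      mul_zero])
  rw [petty, petty, show profileConst (j + 1) = I₁ ^ (j + 1 + 1) / I₂ ^ (j + 1) from rfl,
    show j + 1 + 2 = j + 1 + 1 + 1 by omega,
    show j + 2 = j + 1 + 1 by omega, ← hA, ← hB, ← e2, ← e1]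
  rw [mul_pow, mul_pow, mul_pow, mul_pow]
  field_simp
  ring

lemma projBody_symm (K : Set (E N)) : ∀ x ∈ projBody K, -x ∈ projBody K := fun x hx u => by
  rw [inner_neg_left, ← inner_neg_right]
  exact (hx (-u)).trans_eq (projVol_neg K u)

lemma supp_neg_symm {Z : Set (E N)} (hZ : Cen Z) (hs : ∀ x ∈ Z, -x ∈ Z) (u : E N) :
    supp Z (-u) = supp Z u := by
  have hne : Z.Nonempty := ⟨0, interior_subset hZ.int⟩
  obtain ⟨⟨k, hk, e⟩, h⟩ := supp_spec hZ.cpt hne (-u)
  obtain ⟨⟨k', hk', e'⟩, h'⟩ := supp_spec hZ.cpt hne u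
  refine le_antisymm ?_ ?_
  · rw [e, inner_neg_left, ← inner_neg_right]; exact h' _ (hs k hk)
  · have := h _ (hs k' hk')
    rw [inner_neg_neg] at this
    rwa [e']

/-- At a symmetric minimiser `Π² Z` is a multiple of `Z`. -/
lemma symm_min_structure {Z : Set (E (m + 2))} (hZ : Cen Z) (hs : ∀ x ∈ Z, -x ∈ Z) (hmin : IsMin Z)
    (u : E (m + 2)) : projVol (projBody Z) u =
      (volume (projBody Z)).toReal / (volume Z).toReal * supp Z u := by
  obtain ⟨g, Z', hgZ, hZ', hs', -, h⟩ := minimiser_structure hZ.toBody ⟨0, hZ.int⟩ hmin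
  have h2 : ∀ v : E (m + 2), supp Z v = ⟪v, g⟫ + supp Z' v := fun v => by
    rw [hgZ, supp_vadd hZ'.cpt ⟨0, interior_subset hZ'.int⟩]
  have h3 := h2 (-g)
  rw [supp_neg_symm hZ hs, h2 g, supp_neg_symm hZ' hs', inner_neg_left] at h3
  have hg : g = 0 := inner_self_eq_zero.1 (show ⟪g, g⟫ = 0 by linarith)
  rw [hg, zero_vadd] at hgZ
  rw [hgZ]
  exact h u

lemma rescale_Icc (ρ : ℝ → ℝ) {r : ℝ} (hr : 0 < r) :
    ∫ t in Icc (-r) r, ρ t = r * ∫ t in Icc (-1 : ℝ) 1, ρ (r * t) := by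
  rw [integral_Icc_eq_integral_Ioc, ← intervalIntegral.integral_of_le (by linarith),
    integral_Icc_eq_integral_Ioc, ← intervalIntegral.integral_of_le (by norm_num),
    intervalIntegral.mul_integral_comp_mul_left]
  congr 1 <;> ring

/-- The bound at a symmetric minimiser. -/
lemma symm_min_bound (hm : 1 ≤ m) {C : ℝ} (hC : 0 < C)
    (hlow : ∀ L : Set (E (m + 1)), Body L → (interior L).Nonempty →
      C * (volume L).toReal ^ m ≤ (volume (projBody L)).toReal)
    (hP : ProfileDim m) {Z : Set (E (m + 2))} (hZ : Cen Z) (hs : ∀ x ∈ Z, -x ∈ Z)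
    (hmin : IsMin Z) :
    C * profileConst m ≤ ratio Z ∧ (ratio Z = C * profileConst m →
      ∃ (T : E (m + 2) ≃L[ℝ] E (m + 2)) (r : ℝ), 0 < r ∧ Z = T '' closedBall 0 r) := by
  obtain ⟨T, ν, F, r, hLc, hLs, hr, hsupp, hball, hρ0, hvol, hconc, heven, hout, hge, hmom⟩ :=
    exists_profile (Nat.succ_pos m) hZ.toBody ⟨0, hZ.int⟩ hs
  set L := T '' Z with hL
  set ρ := F.rad L with hρ
  have hratio : ratio L = ratio Z := ratio_image T hZ.toBody
  have hLmin : IsMin L := fun K h1 h2 => hratio ▸ hmin K h1 h2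
  have hV0 := vol_pos hLc
  have hcl := ratio_mul_eq hLc (symm_min_structure hLc hLs hLmin) ν
  have hsh := shadow_int hm hC.le hlow hLc.toBody ⟨0, hLc.int⟩ F
  rw [← hcl, hsupp] at hsh
  set f : ℝ → ℝ := fun t => ρ (r * t) / r with hf
  have hmem : ∀ t ∈ Icc (-1 : ℝ) 1, r * t ∈ Icc (-r) r := fun t ht =>
    ⟨by nlinarith [ht.1], by nlinarith [ht.2]⟩
  have fconc : ConcaveOn ℝ (Icc (-1) 1) f := by
    refine ⟨convex_Icc _ _, fun x hx y hy a b ha hb hab => ?_⟩
    have h := hconc.2 (hmem x hx) (hmem y hy) ha hb hab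
    simp only [smul_eq_mul] at h ⊢
    simp only [hf, hρ]
    rw [show r * (a * x + b * y) = a * (r * x) + b * (r * y) by ring, mul_div_assoc', mul_div_assoc',
      ← add_div, div_le_div_iff_of_pos_right hr]
    exact h
  have fge : ∀ t ∈ Icc (-1 : ℝ) 1, √(1 - t ^ 2) ≤ f t := fun t ht => by
    simp only [hf, hρ]
    rw [le_div_iff₀ hr]
    have h := hge (r * t) (abs_le.2 (hmem t ht))
    rwa [show r ^ 2 - (r * t) ^ 2 = (1 - t ^ 2) * r ^ 2 by ring, Real.sqrt_mul' _ (sq_nonneg r),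
      Real.sqrt_sq hr.le] at h
  have ipow : ∀ k, ∫ t in Icc (-r) r, ρ t ^ k = r ^ (k + 1) * ∫ t in Icc (-1 : ℝ) 1, f t ^ k := by
    intro k
    rw [rescale_Icc (fun t => ρ t ^ k) hr, ← integral_const_mul, ← integral_const_mul]
    congr 1; funext t; simp only [hf, div_pow, pow_succ']; field_simp
  have i2 : ∫ t in Icc (-r) r, t ^ 2 * ρ t ^ (m + 1) =
      r ^ (m + 4) * ∫ t in Icc (-1 : ℝ) 1, t ^ 2 * f t ^ (m + 1) := by
    rw [rescale_Icc (fun t => t ^ 2 * ρ t ^ (m + 1)) hr, ← integral_const_mul, ← integral_const_mul]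
    congr 1; funext t; simp only [hf, div_pow]; field_simp; ring
  have fmom : ∫ t in Icc (-1 : ℝ) 1, f t ^ (m + 3) ≤
      ((m : ℝ) + 3) * ∫ t in Icc (-1 : ℝ) 1, t ^ 2 * f t ^ (m + 1) := by
    have h : ∫ t in Icc (-r) r, ρ t ^ (m + 3) ≤
        ((m : ℝ) + 3) * ∫ t in Icc (-r) r, t ^ 2 * ρ t ^ (m + 1) := by
      have h' := hmom
      push_cast at h'
      rw [show (m : ℝ) + 1 + 2 = m + 3 by ring] at h'
      exact h'
    rw [ipow, i2, mul_left_comm, show m + 3 + 1 = m + 4 by omega] at h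
    exact le_of_mul_le_mul_left h (pow_pos hr _)
  obtain ⟨hlem, hlemeq⟩ := hP f fconc
    (fun t => by simp only [hf, hρ, mul_neg]; exact congrArg (· / r) (heven (r * t))) fge fmom
  set I := ∫ t in Icc (-1 : ℝ) 1, f t ^ m
  set J := ∫ t in Icc (-1 : ℝ) 1, f t ^ (m + 1)
  set κ := Statement.ballVol (m + 1)
  have hκ : 0 < κ := ballVol_pos' (Nat.succ_pos m)
  have hz : ∀ t, t ∉ Icc (-r) r → ρ t = 0 := fun t ht => hout t (by
    by_contra h; exact ht (abs_le.1 (not_lt.1 h)))
  have hV : (volume L).toReal = κ * (r ^ (m + 2) * J) := by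
    rw [← (F.volume_slices L hLc.cpt).2, show m + 2 = m + 1 + 1 from rfl, ← ipow,
      setIntegral_eq_integral_of_forall_compl_eq_zero
        (fun t ht => by simp [hz t ht]), ← integral_const_mul]
    congr 1; funext t
    exact hvol t
  obtain ⟨c, hc0, hc⟩ := exists_root (Nat.succ_ne_zero m) hκ.le
  have hS : (∫ t, (volume (F.slice L t)).toReal ^ ((m : ℝ) / (m + 1))) ^ (m + 1) =
      κ ^ m * (r ^ (m + 1) * I) ^ (m + 1) := by
    have e : ∀ t, (volume (F.slice L t)).toReal ^ ((m : ℝ) / (m + 1)) = c ^ m * ρ t ^ m := fun t => by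
      rw [show (volume (F.slice L t)).toReal = (c * ρ t) ^ (m + 1) by rw [mul_pow, hc, hvol t],
        ← Real.rpow_natCast, ← Real.rpow_mul (mul_nonneg hc0 (hρ0 t)), ← mul_pow,
        ← Real.rpow_natCast (c * ρ t) m]
      congr 1; push_cast; field_simp
    simp only [e]
    rw [integral_const_mul, mul_pow, ← pow_mul, mul_comm m, pow_mul, hc, ← ipow,
      setIntegral_eq_integral_of_forall_compl_eq_zero
        (fun t ht => by rw [hz t ht, zero_pow (show m ≠ 0 by omega)])]
  have hJ : 0 < J := by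
    rw [hV] at hV0
    exact pos_of_mul_pos_right (pos_of_mul_pos_right hV0 hκ.le) (pow_pos hr _).le
  rw [hS, hV] at hsh
  have key : C * I ^ (m + 1) ≤ ratio L * J ^ m := by
    have e1 : κ ^ m * (r ^ (m + 1) * I) ^ (m + 1) = κ ^ m * r ^ ((m + 1) * (m + 1)) * I ^ (m + 1) := by
      rw [mul_pow, ← pow_mul]; ring
    have e2 : (κ * (r ^ (m + 2) * J)) ^ m * r = κ ^ m * r ^ ((m + 1) * (m + 1)) * J ^ m := by
      rw [mul_pow, mul_pow, ← pow_mul, show (m + 1) * (m + 1) = (m + 2) * m + 1 by ring, pow_succ]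
      ring
    rw [e1, e2] at hsh
    refine le_of_mul_le_mul_left ?_ (show 0 < κ ^ m * r ^ ((m + 1) * (m + 1)) by positivity)
    linarith
  have hJm : 0 < J ^ m := pow_pos hJ m
  have key2 : C * profileConst m * J ^ m ≤ C * I ^ (m + 1) := by
    rw [mul_assoc]; exact mul_le_mul_of_nonneg_left hlem hC.le
  refine ⟨hratio ▸ le_of_mul_le_mul_right (key2.trans key) hJm, fun heq => ?_⟩
  rw [hratio, heq] at key
  have hIJ : I ^ (m + 1) = profileConst m * J ^ m := by
    refine le_antisymm ?_ hlem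
    rw [mul_assoc] at key
    exact le_of_mul_le_mul_left key hC
  have fle := hlemeq hIJ
  have fend : ∀ t ∈ Icc (-1 : ℝ) 1, f t ≤ √(1 - t ^ 2) := by
    have h1 : f 1 ≤ 0 := by
      have hlim : Tendsto (fun ε : ℝ => √(1 - ε ^ 2) - (1 - ε) * f 0) (𝓝[<] 1) (𝓝 0) := by
        have : Continuous fun ε : ℝ => √(1 - ε ^ 2) - (1 - ε) * f 0 := by fun_prop
        simpa using (this.tendsto 1).mono_left nhdsWithin_le_nhds
      have hb : ∀ᶠ ε in 𝓝[<] (1 : ℝ), ε * f 1 ≤ √(1 - ε ^ 2) - (1 - ε) * f 0 := by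
        filter_upwards [Ioo_mem_nhdsLT (show (0 : ℝ) < 1 by norm_num)] with ε hε
        have h := fconc.2 (show (0 : ℝ) ∈ Icc (-1 : ℝ) 1 by norm_num)
          (show (1 : ℝ) ∈ Icc (-1 : ℝ) 1 by norm_num) (show 0 ≤ 1 - ε by linarith [hε.2]) hε.1.le
          (by ring)
        simp only [smul_eq_mul, mul_zero, zero_add, mul_one] at h
        linarith [fle ε ⟨by linarith [hε.1], hε.2⟩]
      have hl : Tendsto (fun ε : ℝ => ε * f 1) (𝓝[<] 1) (𝓝 (f 1)) := by
        have : Continuous fun ε : ℝ => ε * f 1 := by fun_prop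
        simpa using (this.tendsto 1).mono_left nhdsWithin_le_nhds
      exact le_of_tendsto_of_tendsto hl hlim hb
    intro t ht
    rcases eq_or_lt_of_le ht.1 with rfl | h
    · have e : f (-1) = f 1 := by
        simp only [hf, hρ, mul_neg]; exact congrArg (· / r) (heven (r * 1))
      rw [e]; simpa using h1
    rcases eq_or_lt_of_le ht.2 with rfl | h'
    · simpa using h1
    exact fle t ⟨h, h'⟩
  have hball' : L = closedBall 0 r :=
    eq_ball_of_rad (Nat.succ_pos m) F hLc.toBody hr hball hout fun t ht => by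
    have h := fend (t / r) ⟨by rw [le_div_iff₀ hr]; linarith [(abs_le.1 ht).1],
      by rw [div_le_one hr]; exact (abs_le.1 ht).2⟩
    simp only [hf, hρ, mul_div_cancel₀ _ hr.ne'] at h
    rw [div_le_iff₀ hr, show 1 - (t / r) ^ 2 = (r ^ 2 - t ^ 2) / r ^ 2 by field_simp,
      Real.sqrt_div' _ (sq_nonneg r), Real.sqrt_sq hr.le, div_mul_cancel₀ _ hr.ne'] at h
    exact h
  refine ⟨T.symm, r, hr, ?_⟩
  rw [← hball', hL, image_image]
  simp

/-- The projection body of a linear image of a ball is a linear image of a ball. -/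
lemma projBody_image_ball (T : E (m + 2) ≃L[ℝ] E (m + 2)) {r : ℝ} (hr : 0 < r) :
    ∃ S : E (m + 2) →ₗ[ℝ] E (m + 2), Function.Injective S ∧
      projBody (T '' closedBall 0 r) = S '' closedBall 0 1 := by
  set D := |LinearMap.det (T.toLinearEquiv : E (m + 2) →ₗ[ℝ] E (m + 2))|
  have hD0 : 0 < D := abs_pos.2 T.toLinearEquiv.isUnit_det'.ne_zero
  set f := LinearMap.adjoint (T.toLinearEquiv : E (m + 2) →ₗ[ℝ] E (m + 2)) with hf
  have hinj : Function.Injective f := by
    rw [← LinearMap.ker_eq_bot, LinearMap.ker_eq_bot']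
    intro x hx
    have h := LinearMap.adjoint_inner_left (T.toLinearEquiv : E (m + 2) →ₗ[ℝ] E (m + 2)) (T.symm x) x
    rw [← hf, hx, inner_zero_left,
      show (T.toLinearEquiv : E (m + 2) →ₗ[ℝ] E (m + 2)) (T.symm x) = x from
      T.apply_symm_apply x] at h
    exact inner_self_eq_zero.1 h.symm
  set g := (LinearEquiv.ofInjectiveEndo f hinj).symm with hg
  set c := D * (Statement.ballVol (m + 1) * r ^ (m + 1)) with hc
  have hc0 : 0 < c := by
    have := ballVol_pos' (Nat.succ_pos m)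
    positivity
  have hp : projBody (T '' closedBall 0 r) = f ⁻¹' closedBall 0 c := by
    ext y
    have hB : Body (closedBall (0 : E (m + 2)) r) := ⟨convex_closedBall _ _, isCompact_closedBall _ _⟩
    simp only [projBody, mem_ofPred_eq, projVol_image T hB, projVol_ball hr.le, mem_preimage,
      mem_closedBall_zero_iff]
    constructor
    · intro h
      rcases eq_or_ne (f y) 0 with h0 | h0
      · rw [h0, norm_zero]; exact hc0.le
      have := h (T (f y))
      rw [T.symm_apply_apply, show ⟪y, T (f y)⟫ = ⟪f y, f y⟫ from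
        (LinearMap.adjoint_inner_left _ _ _).symm, real_inner_self_eq_norm_sq] at this
      exact le_of_mul_le_mul_left (by linarith) (norm_pos_iff.2 h0)
    · intro h u
      have e : ⟪y, u⟫ = ⟪f y, T.symm u⟫ := by
        rw [hf, LinearMap.adjoint_inner_left]
        exact congrArg _ (T.apply_symm_apply u).symm
      rw [e]
      refine (real_inner_le_norm _ _).trans ?_
      calc ‖f y‖ * ‖T.symm u‖ ≤ c * ‖T.symm u‖ := mul_le_mul_of_nonneg_right h (norm_nonneg _)
        _ = _ := by rw [hc]; ring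
  refine ⟨c • (g : E (m + 2) →ₗ[ℝ] E (m + 2)), fun x y h => g.injective
    (smul_right_injective _ hc0.ne' h), ?_⟩
  rw [hp]
  ext y
  simp only [mem_preimage, mem_closedBall_zero_iff, mem_image, LinearMap.smul_apply,
    LinearEquiv.coe_coe]
  constructor
  · intro h
    refine ⟨c⁻¹ • f y, ?_, ?_⟩
    · rw [norm_smul, Real.norm_eq_abs, abs_of_pos (inv_pos.2 hc0), inv_mul_le_one₀ hc0]; exact h
    · rw [map_smul, smul_inv_smul₀ hc0.ne']
      exact (LinearEquiv.ofInjectiveEndo f hinj).symm_apply_apply y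
  · rintro ⟨x, hx, rfl⟩
    rw [map_smul, show f (g x) = x from (LinearEquiv.ofInjectiveEndo f hinj).apply_symm_apply x,
      norm_smul, Real.norm_eq_abs, abs_of_pos hc0]
    exact mul_le_of_le_one_right hc0.le hx

/-- Petty's inequality in dimension `m + 2`. -/
def PettyBound (m : ℕ) : Prop :=
  ∀ K : Set (E (m + 2)), Body K → (interior K).Nonempty →
    petty m * (volume K).toReal ^ (m + 1) ≤ (volume (projBody K)).toReal

/-- **The induction step**: the inequality in dimension `j + 2` and the profile lemma give the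
inequality, with the equality case, in dimension `j + 3`. -/
theorem petty_step {j : ℕ} (hlow : PettyBound j) (hP : ProfileDim (j + 1))
    {K : Set (E (j + 3))} (hK : Body K) (hi : (interior K).Nonempty) :
    petty (j + 1) ≤ ratio K ∧ (ratio K = petty (j + 1) ↔
      ∃ (a : E (j + 3)) (S : E (j + 3) →ₗ[ℝ] E (j + 3)),
        Function.Injective S ∧ K = a +ᵥ S '' closedBall 0 1) := by
  have hC : 0 < petty j := by
    have := ballVol_pos' (Nat.succ_pos j)
    have := ballVol_pos' (Nat.succ_pos (j + 1))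
    rw [petty]; positivity
  have hsb : ∀ Z : Set (E (j + 3)), Cen Z → (∀ x ∈ Z, -x ∈ Z) → IsMin Z →
      petty (j + 1) ≤ ratio Z ∧ (ratio Z = petty (j + 1) →
        ∃ (T : E (j + 3) ≃L[ℝ] E (j + 3)) (r : ℝ), 0 < r ∧ Z = T '' closedBall 0 r) := by
    intro Z hZ hs hmin
    rw [petty_succ_eq]
    exact symm_min_bound (m := j + 1) (by omega) hC hlow hP hZ hs hmin
  obtain ⟨Z₀, hZ₀, hs₀, hmin₀, -⟩ := exists_symm_minimiser (j + 1)
  have hbound : ∀ M : Set (E (j + 3)), Body M → (interior M).Nonempty →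
      petty (j + 1) ≤ ratio M := fun M hM hMi =>
    (hsb Z₀ hZ₀ hs₀ hmin₀).1.trans (hmin₀ M hM hMi)
  refine ⟨hbound K hK hi, fun heq => ?_, ?_⟩
  · obtain ⟨g, Z, hKZ, hZ, hs, hmin, -⟩ := minimiser_structure (m := j + 1) hK hi
      fun L hL hLi => heq ▸ hbound L hL hLi
    have he : ratio Z = petty (j + 1) := by rw [← heq, hKZ, ratio_vadd hZ.toBody]
    obtain ⟨T, r, hr, hTr⟩ := (hsb Z hZ hs hmin).2 he
    refine ⟨g, r • (T.toLinearEquiv : E (j + 3) →ₗ[ℝ] E (j + 3)),
      fun x y h => T.injective (smul_right_injective _ hr.ne' h), ?_⟩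
    rw [hKZ, hTr]
    congr 1
    ext y
    simp only [mem_image, mem_closedBall_zero_iff, LinearMap.smul_apply, LinearEquiv.coe_coe]
    constructor
    · rintro ⟨x, hx, rfl⟩
      refine ⟨r⁻¹ • x, ?_, ?_⟩
      · rw [norm_smul, Real.norm_eq_abs, abs_of_pos (inv_pos.2 hr), inv_mul_le_one₀ hr]; exact hx
      · rw [map_smul, smul_inv_smul₀ hr.ne']; rfl
    · rintro ⟨x, hx, rfl⟩
      refine ⟨r • x, ?_, by rw [map_smul]; rfl⟩
      rw [norm_smul, Real.norm_eq_abs, abs_of_pos hr]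
      exact mul_le_of_le_one_right hr.le hx
  · rintro ⟨a, S, hS, rfl⟩
    set T := (LinearEquiv.ofInjectiveEndo S hS).toContinuousLinearEquiv
    have e : S '' closedBall (0 : E (j + 3)) 1 = T '' closedBall 0 1 := rfl
    have hb : Body (T '' closedBall (0 : E (j + 3)) 1) :=
      ⟨(convex_closedBall _ _).linear_image (T.toLinearEquiv : E (j + 3) →ₗ[ℝ] E (j + 3)),
        (isCompact_closedBall _ _).image T.continuous⟩
    rw [e, ratio_vadd hb, ratio_image T ⟨convex_closedBall _ _, isCompact_closedBall _ _⟩,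
      ratio_unit_ball]

/-- The planar case. -/
theorem pettyBound_zero : PettyBound 0 := by
  intro K hK hi
  have h := good 1 K hK hi
  rw [petty, pow_zero, div_one, show Statement.ballVol (0 + 1) = 2 from ballVol_one]
  rw [show cst (1 + 1) = 4 by norm_num [cst]] at h
  norm_num
  simpa using h

theorem pettyBound_succ {j : ℕ} (hlow : PettyBound j) (hP : ProfileDim (j + 1)) :
    PettyBound (j + 1) := fun K hK hi => by
  have h := (petty_step hlow hP hK hi).1
  have hV : 0 < (volume K).toReal := ENNReal.toReal_pos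
    ((isOpen_interior.measure_pos volume hi).trans_le (measure_mono interior_subset)).ne'
    hK.cpt.measure_lt_top.ne
  rwa [ratio, show j + 1 + 2 - 1 = j + 1 + 1 by omega, le_div_iff₀ (pow_pos hV _)] at h

end Vale.Agent.P237.Full
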