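import Vale.Agent.P237.Zono

/-!
# P237: affine invariance of the normalised projection volume and existence of a minimiser
-/

open MeasureTheory Set Filter Topology Metric
open scoped RealInnerProductSpace Pointwise

namespace Vale.Agent.P237.Full

variable {n N : ℕ}

/-- The normalised projection volume. -/
noncomputable def ratio (K : Set (E N)) : ℝ :=
  (volume (projBody K)).toReal / (volume K).toReal ^ (N - 1)

lemma projVol_image (T : E (n + 1) ≃L[ℝ] E (n + 1)) {K : Set (E (n + 1))} (hK : Body K)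
    (u : E (n + 1)) :
    projVol (T '' K) u =
      |LinearMap.det (T.toLinearEquiv : E (n + 1) →ₗ[ℝ] E (n + 1))| * projVol K (T.symm u) := by
  have hTK : Body (T '' K) :=
    ⟨hK.conv.linear_image (T.toLinearEquiv : E (n + 1) →ₗ[ℝ] E (n + 1)),
      hK.cpt.image T.continuous⟩
  have h1 := volume_addSeg hTK u
  have h2 := volume_addSeg hK (T.symm u)
  have h3 : addSeg (T '' K) u = T '' addSeg K (T.symm u) := by
    ext z
    constructor
    · intro h
      obtain ⟨_, ⟨k, hk, rfl⟩, s, hs, rfl⟩ := mem_addSeg.1 h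
      exact ⟨k + s • T.symm u, mem_addSeg.2 ⟨k, hk, s, hs, rfl⟩, by simp⟩
    · rintro ⟨w, hw, rfl⟩
      obtain ⟨k, hk, s, hs, rfl⟩ := mem_addSeg.1 hw
      exact mem_addSeg.2 ⟨T k, ⟨k, hk, rfl⟩, s, hs, by simp⟩
  have hv : ∀ A : Set (E (n + 1)), (volume (T '' A)).toReal =
      |LinearMap.det (T.toLinearEquiv : E (n + 1) →ₗ[ℝ] E (n + 1))| * (volume A).toReal := fun A => by
    rw [show T '' A = (T.toLinearEquiv : E (n + 1) →ₗ[ℝ] E (n + 1)) '' A from rfl,
      Measure.addHaar_image_linearMap, ENNReal.toReal_mul, ENNReal.toReal_ofReal (abs_nonneg _)]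
  rw [h3, hv, hv, h2] at h1
  linarith

lemma ratio_image (T : E (n + 1) ≃L[ℝ] E (n + 1)) {K : Set (E (n + 1))} (hK : Body K) :
    ratio (T '' K) = ratio K := by
  set f := (T.toLinearEquiv : E (n + 1) →ₗ[ℝ] E (n + 1)) with hf
  set D := |LinearMap.det f| with hD
  have hd : LinearMap.det f ≠ 0 := T.toLinearEquiv.isUnit_det'.ne_zero
  have hD0 : 0 < D := abs_pos.2 hd
  have hg : LinearMap.det (LinearMap.adjoint f) = LinearMap.det f := by
    let b := EuclideanSpace.basisFun (Fin (n + 1)) ℝ
    rw [← LinearMap.det_toMatrix b.toBasis, LinearMap.toMatrix_adjoint, Matrix.det_conjTranspose,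
      LinearMap.det_toMatrix, star_trivial]
  have hp : projBody (T '' K) = LinearMap.adjoint f ⁻¹' (D • projBody K) := by
    ext y
    rw [mem_preimage, mem_smul_set_iff_inv_smul_mem₀ hD0.ne']
    simp only [projBody, mem_ofPred_eq, projVol_image T hK, ← hf, ← hD, real_inner_smul_left,
      LinearMap.adjoint_inner_left, inv_mul_le_iff₀ hD0]
    refine ⟨fun h w => ?_, fun h u => ?_⟩
    · have := h (T w)
      rwa [T.symm_apply_apply] at this
    · have := h (T.symm u)
      rwa [show f (T.symm u) = u from T.apply_symm_apply u] at this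
  have hv : (volume (T '' K)).toReal = D * (volume K).toReal := by
    rw [show T '' K = f '' K from rfl, Measure.addHaar_image_linearMap, ENNReal.toReal_mul,
      ENNReal.toReal_ofReal (abs_nonneg _)]
  rw [ratio, ratio, hv, hp, Measure.addHaar_preimage_linearMap _ (by rw [hg]; exact hd), hg,
    ENNReal.toReal_mul, ENNReal.toReal_ofReal (abs_nonneg _), abs_inv, ← hD,
    Measure.addHaar_smul_of_nonneg _ hD0.le, finrank_euclideanSpace_fin, ENNReal.toReal_mul,
    ENNReal.toReal_ofReal (pow_nonneg hD0.le _), Nat.add_sub_cancel, pow_succ, mul_pow]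
  field_simp

lemma ratio_vadd {K : Set (E (n + 1))} (hK : Body K) (a : E (n + 1)) :
    ratio (a +ᵥ K) = ratio K := by
  rw [ratio, ratio, projBody_vadd hK, measure_vadd]

/-! ## Position -/

/-- An affine position between two fixed balls. -/
lemma exists_position {K : Set (E (n + 1))} (hK : Body K) (hi : (interior K).Nonempty) :
    ∃ (T : E (n + 1) ≃L[ℝ] E (n + 1)) (a : E (n + 1)),
      closedBall 0 (1 / ((n + 2 : ℝ) * (n + 1))) ⊆ a +ᵥ T '' K ∧
      a +ᵥ T '' K ⊆ closedBall 0 (4 * (n + 1)) := by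
  let W : (Option (Fin (n + 1)) → E (n + 1)) → Matrix (Fin (n + 1)) (Fin (n + 1)) ℝ :=
    fun v => Matrix.of fun i j => v (some j) i - v none i
  have hcont : Continuous fun v => |(W v).det| :=
    (Continuous.matrix_det (continuous_matrix fun i j =>
      ((PiLp.continuous_apply 2 _ i).comp (continuous_apply (some j))).sub
        ((PiLp.continuous_apply 2 _ i).comp (continuous_apply none)))).abs
  obtain ⟨c₀, hc₀⟩ := hi
  obtain ⟨v, hv, hmax⟩ := (isCompact_univ_pi fun _ : Option (Fin (n + 1)) => hK.cpt).exists_isMaxOn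
    ⟨fun _ => c₀, fun _ _ => interior_subset hc₀⟩ hcont.continuousOn
  have hv' : ∀ o, v o ∈ K := fun o => hv o trivial
  have hd : (W v).det ≠ 0 := by
    obtain ⟨ρ, hρ, hb⟩ := Metric.mem_nhds_iff.1 (mem_interior_iff_mem_nhds.1 hc₀)
    let u : Option (Fin (n + 1)) → E (n + 1) :=
      fun o => o.elim c₀ fun i => c₀ + EuclideanSpace.single i (ρ / 2)
    have hu : u ∈ Set.pi univ fun _ : Option (Fin (n + 1)) => K := by
      intro o _
      cases o with
      | none => exact interior_subset hc₀
      | some i =>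
        refine hb ?_
        show c₀ + EuclideanSpace.single i (ρ / 2) ∈ ball c₀ ρ
        rw [mem_ball, dist_eq_norm, add_sub_cancel_left, PiLp.norm_single, Real.norm_eq_abs,
          abs_of_pos (by linarith)]
        linarith
    have e : W u = Matrix.diagonal fun _ => ρ / 2 := by
      ext i j
      simp [W, u, Matrix.diagonal_apply]
    have h2 := hmax hu
    simp only [mem_ofPred_eq, e, Matrix.det_diagonal, Finset.prod_const] at h2
    intro h0
    rw [h0, abs_zero] at h2
    have : 0 < |(ρ / 2) ^ (Finset.univ : Finset (Fin (n + 1))).card| := by positivity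
    linarith
  have hinj : Function.Injective (Matrix.toEuclideanLin (W v)) := fun x y hxy => by
    apply (WithLp.ofLp_injective 2)
    refine Matrix.mulVec_injective_iff_isUnit.2 ((Matrix.isUnit_iff_isUnit_det _).2 hd.isUnit) ?_
    exact congrArg WithLp.ofLp hxy
  set L := (LinearEquiv.ofInjectiveEndo (Matrix.toEuclideanLin (W v)) hinj) with hL
  have hLa : ∀ a : E (n + 1), ∀ i, L a i = ((W v).mulVec a.ofLp) i := fun a i => rfl
  set T := L.symm.toContinuousLinearEquiv with hT
  have hcoef : ∀ p ∈ K, ∀ i, |T (p - v none) i| ≤ 1 := by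
    intro p hp i
    set a := T (p - v none) with ha
    have e : L a = p - v none := L.apply_symm_apply _
    let u : Option (Fin (n + 1)) → E (n + 1) := Function.update v (some i) p
    have hu : u ∈ Set.pi univ fun _ : Option (Fin (n + 1)) => K := by
      intro o _
      rcases eq_or_ne o (some i) with rfl | ho
      · simpa [u] using hp
      · simpa [u, Function.update_of_ne ho] using hv' o
    have e2 : W u = (W v).updateCol i ((W v).mulVec a.ofLp) := by
      ext q j
      rw [Matrix.updateCol_apply, ← hLa, e]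
      rcases eq_or_ne j i with rfl | hj
      · simp [W, u]
      · simp [W, u, hj]
    have e3 : (W u).det = (W v).det * a i := by
      rw [e2, ← Matrix.cramer_apply, Matrix.cramer_eq_adjugate_mulVec, Matrix.mulVec_mulVec,
        Matrix.adjugate_mul, Matrix.smul_mulVec, Matrix.one_mulVec]
      simp
    have h2 := hmax hu
    simp only [mem_ofPred_eq, e3, abs_mul] at h2
    nlinarith [abs_pos.2 hd]
  set g : E (n + 1) := WithLp.toLp 2 fun _ => (1 : ℝ) / (n + 2) with hg
  refine ⟨T, -(T (v none)) - g, ?_, ?_⟩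
  · intro x hx
    rw [mem_closedBall_zero_iff] at hx
    have hxi : ∀ i, |x i| ≤ 1 / ((n + 2 : ℝ) * (n + 1)) := fun i =>
      le_trans (by simpa using PiLp.norm_apply_le x i) hx
    set y := x + g with hy
    have hy0 : ∀ i, 0 ≤ y i := fun i => by
      have h := (abs_le.1 (hxi i)).1
      have : (1 : ℝ) / ((n + 2) * (n + 1)) ≤ 1 / (n + 2) := by
        refine one_div_le_one_div_of_le (by positivity) ?_
        nlinarith
      simp [hy, hg]
      simp only [one_div] at h this
      linarith
    have hy1 : ∑ i, y i ≤ 1 := by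
      calc ∑ i, y i ≤ ∑ _i : Fin (n + 1), (1 / ((n + 2 : ℝ) * (n + 1)) + 1 / (n + 2)) :=
            Finset.sum_le_sum fun i _ => by
              simp only [hy, hg, PiLp.add_apply]
              linarith [(abs_le.1 (hxi i)).2]
        _ = 1 := by simp; field_simp; ring
    have hmem := hK.conv.sum_mem (t := (Finset.univ : Finset (Option (Fin (n + 1)))))
      (w := fun o => o.elim (1 - ∑ i, y i) fun i => y i) (z := fun o => v o)
      (fun o _ => by cases o <;> simp [hy1, hy0]) (by simp [Fintype.sum_option])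
      (fun o _ => hv' o)
    refine ⟨_, ⟨_, hmem, rfl⟩, ?_⟩
    have hTv : ∀ i, T (v (some i)) = T (v none) + EuclideanSpace.single i 1 := fun i => by
      have : L (EuclideanSpace.single i (1 : ℝ)) = v (some i) - v none := by
        ext q
        rw [hLa]
        simp [W]
      rw [← sub_eq_iff_eq_add', ← map_sub, ← this]
      exact L.symm_apply_apply _
    simp only [Fintype.sum_option, Option.elim_none, Option.elim_some, map_add, map_sum, map_smul,
      hTv, vadd_eq_add, smul_add, Finset.sum_add_distrib, ← Finset.sum_smul]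
    ext j
    simp [hy, hg, Pi.single_apply]
    ring
  · rintro _ ⟨_, ⟨p, hp, rfl⟩, rfl⟩
    rw [mem_closedBall_zero_iff]
    show ‖-(T (v none)) - g + T p‖ ≤ _
    set z := -(T (v none)) - g + T p with hz
    have hzi : ∀ i, |z i| ≤ 2 := fun i => by
      have h := hcoef p hp i
      rw [map_sub, PiLp.sub_apply] at h
      have h1 : (1 : ℝ) / (n + 2) ≤ 1 := by
        rw [div_le_one (by positivity)]; linarith [(Nat.cast_nonneg n : (0 : ℝ) ≤ n)]
      have h2 : (0 : ℝ) ≤ 1 / (n + 2) := by positivity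
      simp only [hz, hg, PiLp.add_apply, PiLp.sub_apply, PiLp.neg_apply]
      rw [abs_le] at h ⊢
      constructor <;> linarith
    have hsq : ‖z‖ ^ 2 ≤ (4 * ((n : ℝ) + 1)) ^ 2 := by
      rw [EuclideanSpace.norm_sq_eq]
      calc ∑ i, ‖z i‖ ^ 2 ≤ ∑ _i : Fin (n + 1), (4 : ℝ) := Finset.sum_le_sum fun i _ => by
            rw [Real.norm_eq_abs]; nlinarith [hzi i, abs_nonneg (z i)]
        _ ≤ _ := by simp; nlinarith [(Nat.cast_nonneg n : (0 : ℝ) ≤ n)]
    exact le_of_pow_le_pow_left₀ two_ne_zero (by positivity) hsq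

/-! ## Selection and continuity -/

/-- Blaschke selection between two balls, in the sandwich form. -/
lemma exists_limit {r R : ℝ} (hr : 0 < r) (K : ℕ → Set (E N)) (hK : ∀ j, Body (K j))
    (hin : ∀ j, closedBall 0 r ⊆ K j) (hout : ∀ j, K j ⊆ closedBall 0 R) :
    ∃ (L : Set (E N)) (φ : ℕ → ℕ), StrictMono φ ∧ Body L ∧ closedBall 0 r ⊆ L ∧
      ∀ ε > (0 : ℝ), ∀ᶠ j in atTop, K (φ j) ⊆ (1 + ε) • L ∧ L ⊆ (1 + ε) • K (φ j) := by
  set C : ℕ → TopologicalSpace.Compacts (E N) := fun j => ⟨K j, (hK j).cpt⟩ with hC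
  obtain ⟨L, hL, φ, hφ, hlim⟩ :=
    (TopologicalSpace.Compacts.isCompact_subsets_of_isCompact
      (isCompact_closedBall (0 : E N) R)).tendsto_subseq (x := C) hout
  have hopen : ∀ U : Set (E N), IsOpen U → (L : Set (E N)) ⊆ U → ∀ᶠ j in atTop, K (φ j) ⊆ U :=
    fun U hU hLU => hlim.eventually
      ((TopologicalSpace.Compacts.isOpen_subsets_of_isOpen hU).mem_nhds hLU)
  have hmeet : ∀ U : Set (E N), IsOpen U → ((L : Set (E N)) ∩ U).Nonempty →
      ∀ᶠ j in atTop, (K (φ j) ∩ U).Nonempty :=
    fun U hU hLU => hlim.eventually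
      ((TopologicalSpace.Compacts.isOpen_inter_nonempty_of_isOpen hU).mem_nhds hLU)
  have hrL : closedBall 0 r ⊆ (L : Set (E N)) := by
    intro x hx
    by_contra hxL
    obtain ⟨j, hj⟩ := (hopen {x}ᶜ isOpen_compl_singleton
      (subset_compl_singleton_iff.2 hxL)).exists
    exact hj (hin _ hx) rfl
  have hLcv : Convex ℝ (L : Set (E N)) := by
    intro x hx y hy a b ha hb hab
    by_contra hz
    set z := a • x + b • y with hzdef
    obtain ⟨δ, hδ, hδL⟩ := Metric.isOpen_iff.1 L.isCompact.isClosed.isOpen_compl z hz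
    have e1 := hmeet (ball x (δ / 2)) isOpen_ball ⟨x, hx, mem_ball_self (half_pos hδ)⟩
    have e2 := hmeet (ball y (δ / 2)) isOpen_ball ⟨y, hy, mem_ball_self (half_pos hδ)⟩
    have e3 := hopen (closedBall z (δ / 2))ᶜ isClosed_closedBall.isOpen_compl fun w hw hwz => by
      refine hδL ?_ hw
      rw [mem_ball]
      exact lt_of_le_of_lt hwz (half_lt_self hδ)
    obtain ⟨j, ⟨⟨p, hp, hpx⟩, ⟨q, hq, hqy⟩⟩, hj⟩ := ((e1.and e2).and e3).exists
    refine hj ((hK _).conv hp hq ha hb hab) ?_
    rw [mem_closedBall, dist_eq_norm, hzdef,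
      show a • p + b • q - (a • x + b • y) = a • (p - x) + b • (q - y) by module]
    rw [mem_ball, dist_eq_norm] at hpx hqy
    refine (norm_add_le _ _).trans ?_
    rw [norm_smul, norm_smul, Real.norm_of_nonneg ha, Real.norm_of_nonneg hb]
    have h1 := mul_le_mul_of_nonneg_left hpx.le ha
    have h2 := mul_le_mul_of_nonneg_left hqy.le hb
    have h3 : a * (δ / 2) + b * (δ / 2) = δ / 2 := by rw [← add_mul, hab, one_mul]
    linarith
  refine ⟨L, φ, hφ, ⟨hLcv, L.isCompact⟩, hrL, fun ε hε => ?_⟩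
  have h0 : (0 : E N) ∈ interior (L : Set (E N)) :=
    mem_interior_iff_mem_nhds.2 (mem_of_superset (closedBall_mem_nhds _ hr) hrL)
  have hLU : (L : Set (E N)) ⊆ interior ((1 + ε) • (L : Set (E N))) := by
    intro x hx
    rw [interior_smul₀ (by linarith : (1 + ε) ≠ 0)]
    refine ⟨(1 / (1 + ε)) • x, ?_, ?_⟩
    · have := hLcv.combo_interior_self_mem_interior h0 hx (a := ε / (1 + ε)) (b := 1 / (1 + ε))
        (by positivity) (by positivity) (by field_simp; ring)
      simpa using this
    · show (1 + ε) • _ = x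
      rw [smul_smul, mul_one_div_cancel (by linarith : (1 + ε) ≠ 0), one_smul]
  have e1 := (hopen _ isOpen_interior hLU).mono fun j hj => hj.trans interior_subset
  obtain ⟨t, htL, htf, hcov⟩ :=
    finite_cover_balls_of_compact L.isCompact (show 0 < ε * r / 2 by positivity)
  have e2 : ∀ᶠ j in atTop, ∀ p ∈ t, (K (φ j) ∩ ball p (ε * r / 2)).Nonempty :=
    htf.eventually_all.2 fun p hp =>
      hmeet _ isOpen_ball ⟨p, htL hp, mem_ball_self (by positivity)⟩
  filter_upwards [e1, e2] with j hj1 hj2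
  refine ⟨hj1, fun x hx => ?_⟩
  obtain ⟨p, hp, hxp⟩ := mem_iUnion₂.1 (hcov hx)
  obtain ⟨k, hk, hkp⟩ := hj2 p hp
  have hxk : dist x k ≤ ε * r := by
    rw [mem_ball] at hxp hkp
    linarith [dist_triangle x p k, dist_comm k p]
  rw [(hK _).conv.add_smul zero_le_one hε.le, one_smul]
  refine ⟨k, hk, x - k, ⟨ε⁻¹ • (x - k), hin _ ?_, smul_inv_smul₀ hε.ne' _⟩, by simp⟩
  rw [mem_closedBall_zero_iff, norm_smul, Real.norm_eq_abs, abs_of_pos (inv_pos.2 hε),
    inv_mul_le_iff₀ hε, ← dist_eq_norm]
  exact hxk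

lemma projBody_subset {K L : Set (E (n + 1))} (_hK : Body K) (hL : Body L) {t : ℝ} (ht : 0 < t)
    (h : K ⊆ t • L) : projBody K ⊆ t ^ n • projBody L := by
  intro y hy
  rw [mem_smul_set_iff_inv_smul_mem₀ (pow_ne_zero _ ht.ne')]
  intro u
  rw [real_inner_smul_left, inv_mul_le_iff₀ (pow_pos ht _), ← projVol_smul_set hL ht]
  exact (hy u).trans (projVol_mono (hL.cpt.smul t) h u)

lemma isCompact_projBody {K : Set (E N)} : IsCompact (projBody K) := by
  refine Metric.isCompact_of_isClosed_isBounded ?_ ?_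
  · simp only [projBody, ofPred_forall]
    exact isClosed_iInter fun u => isClosed_le (by fun_prop) continuous_const
  · rw [Metric.isBounded_iff_subset_closedBall 0]
    refine ⟨∑ i : Fin N, (projVol K (EuclideanSpace.single i 1) +
      projVol K (-EuclideanSpace.single i 1)), fun y hy => ?_⟩
    rw [mem_closedBall_zero_iff]
    have hi : ∀ i, |y i| ≤ projVol K (EuclideanSpace.single i 1) +
        projVol K (-EuclideanSpace.single i 1) := fun i => by
      have h1 := hy (EuclideanSpace.single i 1)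
      have h2 := hy (-EuclideanSpace.single i 1)
      rw [EuclideanSpace.inner_single_right, one_mul] at h1
      rw [inner_neg_right, EuclideanSpace.inner_single_right, one_mul] at h2
      simp only [starRingEnd_apply, star_trivial] at h1 h2
      have := projVol_nonneg K (EuclideanSpace.single i 1)
      have := projVol_nonneg K (-EuclideanSpace.single i 1)
      rw [abs_le]; constructor <;> linarith
    calc ‖y‖ = ‖∑ i, (y i) • EuclideanSpace.single i (1 : ℝ)‖ := by
          congr 1
          ext j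
          simp [Pi.single_apply]
      _ ≤ ∑ i, ‖(y i) • EuclideanSpace.single i (1 : ℝ)‖ := norm_sum_le _ _
      _ ≤ _ := Finset.sum_le_sum fun i _ => by
          simpa [norm_smul] using hi i

lemma volume_smul_le {A B : Set (E N)} (hB : IsCompact B) {t : ℝ} (ht : 0 ≤ t) (h : A ⊆ t • B) :
    (volume A).toReal ≤ t ^ N * (volume B).toReal := by
  have := ENNReal.toReal_mono (hB.smul t).measure_lt_top.ne (measure_mono (μ := volume) h)
  rwa [Measure.addHaar_smul_of_nonneg _ ht, finrank_euclideanSpace_fin, ENNReal.toReal_mul,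
    ENNReal.toReal_ofReal (pow_nonneg ht _)] at this

/-- Sandwiched bodies have almost the same ratio. -/
lemma ratio_le_of_sandwich {K L : Set (E (n + 1))} (hK : Body K) (hL : Body L) {t : ℝ} (ht : 0 < t)
    (hKpos : 0 < (volume K).toReal) (hLK : L ⊆ t • K) (hKL : K ⊆ t • L) :
    ratio L ≤ (t ^ n) ^ (n + 1) * (t ^ (n + 1)) ^ n * ratio K := by
  have h1 := volume_smul_le isCompact_projBody (pow_nonneg ht.le n) (projBody_subset hL hK ht hLK)
  have h2 := volume_smul_le hL.cpt ht.le hKL
  have hLpos : 0 < (volume L).toReal := pos_of_mul_pos_right (hKpos.trans_le h2) (by positivity)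
  rw [ratio, ratio, Nat.add_sub_cancel, div_le_iff₀ (pow_pos hLpos _), mul_div_assoc',
    div_mul_eq_mul_div, le_div_iff₀ (pow_pos hKpos _)]
  calc (volume (projBody L)).toReal * (volume K).toReal ^ n
      ≤ (t ^ n) ^ (n + 1) * (volume (projBody K)).toReal *
        (t ^ (n + 1) * (volume L).toReal) ^ n :=
        mul_le_mul h1 (pow_le_pow_left₀ hKpos.le h2 n) (by positivity) (by positivity)
    _ = _ := by rw [mul_pow]; ring

/-- **The normalised projection volume attains its infimum.** -/
theorem exists_minimiser (n : ℕ) :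
    ∃ Z : Set (E (n + 1)), Cen Z ∧
      ∀ K : Set (E (n + 1)), Body K → (interior K).Nonempty → ratio Z ≤ ratio K := by
  set S := ratio '' {K : Set (E (n + 1)) | Body K ∧ (interior K).Nonempty} with hS
  have hne : S.Nonempty := ⟨_, closedBall 0 1,
    ⟨⟨convex_closedBall _ _, isCompact_closedBall _ _⟩,
      ⟨0, mem_interior_iff_mem_nhds.2 (closedBall_mem_nhds _ one_pos)⟩⟩, rfl⟩
  have hbdd : BddBelow S := ⟨0, by
    rintro _ ⟨K, -, rfl⟩
    exact div_nonneg ENNReal.toReal_nonneg (pow_nonneg ENNReal.toReal_nonneg _)⟩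
  obtain ⟨u, hu, hlim, humem⟩ := exists_seq_tendsto_sInf hne hbdd
  choose K hK hKu using humem
  choose T a hin hout using fun j => exists_position (hK j).1 (hK j).2
  set K' : ℕ → Set (E (n + 1)) := fun j => a j +ᵥ T j '' K j with hK'
  have hB : ∀ j, Body (T j '' K j) := fun j =>
    ⟨(hK j).1.conv.linear_image ((T j).toLinearEquiv : E (n + 1) →ₗ[ℝ] E (n + 1)),
      (hK j).1.cpt.image (T j).continuous⟩
  have hB' : ∀ j, Body (K' j) := fun j => ⟨(hB j).conv.vadd _, (hB j).cpt.vadd _⟩
  have hru : ∀ j, ratio (K' j) = u j := fun j => by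
    rw [hK', ratio_vadd (hB j), ratio_image (T j) (hK j).1, hKu j]
  have hr : (0 : ℝ) < 1 / ((n + 2 : ℝ) * (n + 1)) := by positivity
  obtain ⟨L, φ, hφ, hL, hrL, hsand⟩ := exists_limit hr K' hB' hin hout
  have hL0 : (0 : E (n + 1)) ∈ interior L :=
    mem_interior_iff_mem_nhds.2 (mem_of_superset (closedBall_mem_nhds _ hr) hrL)
  refine ⟨L, ⟨hL, hL0⟩, fun M hM hMi => le_trans ?_ (csInf_le hbdd ⟨M, ⟨hM, hMi⟩, rfl⟩)⟩
  have hub : ∀ ε > (0 : ℝ),
      ratio L ≤ ((1 + ε) ^ n) ^ (n + 1) * ((1 + ε) ^ (n + 1)) ^ n * sInf S := by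
    intro ε hε
    refine ge_of_tendsto ((hlim.comp hφ.tendsto_atTop).const_mul _) ?_
    filter_upwards [hsand ε hε] with j hj
    rw [Function.comp_apply, ← hru]
    exact ratio_le_of_sandwich (hB' _) hL (by linarith) (ENNReal.toReal_pos
      (Measure.measure_pos_of_mem_nhds volume
        (mem_of_superset (closedBall_mem_nhds _ hr) (hin _))).ne'
      (hB' _).cpt.measure_lt_top.ne) hj.2 hj.1
  have ht : Tendsto (fun ε : ℝ => ((1 + ε) ^ n) ^ (n + 1) * ((1 + ε) ^ (n + 1)) ^ n * sInf S)
      (𝓝[>] 0) (𝓝 (sInf S)) := by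
    have : Continuous fun ε : ℝ =>
        ((1 + ε) ^ n) ^ (n + 1) * ((1 + ε) ^ (n + 1)) ^ n * sInf S := by fun_prop
    simpa using (this.tendsto 0).mono_left nhdsWithin_le_nhds
  exact ge_of_tendsto ht (eventually_nhdsWithin_of_forall fun ε hε => hub ε hε)

end Vale.Agent.P237.Full
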