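import Mathlib

/-!
# P237: the pointwise certificate for the profile lemma in dimension three
-/

open Real Set

namespace Vale.Agent.P237.Full

/-- A Snell-type bound for `θ - sin θ`. -/
lemma sin_gap {θ : ℝ} (h0 : 0 ≤ θ) (h1 : θ ≤ π / 2) :
    θ - sin θ ≤ sin θ * (1 - cos θ) * (2 - cos θ) / 3 := by
  set g : ℝ → ℝ := fun x => sin x * (1 - cos x) * (2 - cos x) / 3 + sin x - x with hg
  have hd : ∀ x, HasDerivAt g (cos x * (1 - cos x) ^ 2) x := by
    intro x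
    have h := ((((hasDerivAt_sin x).mul ((hasDerivAt_cos x).const_sub 1)).mul
      ((hasDerivAt_cos x).const_sub 2)).div_const 3 |>.add (hasDerivAt_sin x)).sub (hasDerivAt_id x)
    refine h.congr_deriv ?_
    have hp := sin_sq_add_cos_sq x
    simp only [Pi.mul_apply]
    linear_combination ((3 - 2 * cos x) / 3) * hp
  have hmono : MonotoneOn g (Icc 0 (π / 2)) := by
    refine monotoneOn_of_hasDerivWithinAt_nonneg (convex_Icc _ _)
      (fun x _ => (hd x).continuousAt.continuousWithinAt) (fun x _ => (hd x).hasDerivWithinAt) ?_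
    intro x hx
    rw [interior_Icc] at hx
    exact mul_nonneg (cos_nonneg_of_neg_pi_div_two_le_of_le (by linarith [hx.1, pi_pos]) hx.2.le)
      (sq_nonneg _)
  have h := hmono ⟨le_rfl, by positivity⟩ ⟨h0, h1⟩ h0
  simp only [hg, sin_zero, zero_mul, zero_div, add_zero, sub_zero] at h
  linarith

/-- The first univariate piece. -/
lemma cert_low {c : ℝ} (h0 : 0 ≤ c) (h1 : c ≤ 1 / 2) :
    0 < 2711173 / 37500000 + 221701 / 93750 * c - 349493173 / 75000000 * c ^ 2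
      - 179701 / 187500 * c ^ 3 + 124843 / 37500 * c ^ 4 + 328 / 375 * c ^ 5 - 23 / 25 * c ^ 6 := by
  nlinarith [mul_nonneg h0 (sub_nonneg.2 h1), pow_nonneg h0 3, pow_nonneg h0 4, pow_nonneg h0 5,
    mul_nonneg (mul_nonneg h0 h0) (sub_nonneg.2 h1),
    mul_nonneg (pow_nonneg h0 4) (sub_nonneg.2 h1), mul_nonneg (pow_nonneg h0 5) (sub_nonneg.2 h1)]

/-- The second univariate piece. -/
lemma cert_high {c : ℝ} (h0 : 1 / 2 ≤ c) (h1 : c ≤ 1) :
    0 < -(112243353 / 312500000) + 1369639 / 781250 * c - 47068711 / 25000000 * c ^ 2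
      - 86247 / 62500 * c ^ 3 + 29721 / 12500 * c ^ 4 + 56 / 125 * c ^ 5 - 23 / 25 * c ^ 6 := by
  have hp : 0 ≤ (c - 1 / 2) * (1 - c) := mul_nonneg (sub_nonneg.2 h0) (sub_nonneg.2 h1)
  nlinarith [sq_nonneg (c - 3 / 4), hp, mul_nonneg hp (sq_nonneg (c - 3 / 4)),
    mul_nonneg (sub_nonneg.2 h0) (sq_nonneg (c - 3 / 4)),
    mul_nonneg (sub_nonneg.2 h1) (sq_nonneg (c - 3 / 4)),
    mul_nonneg (mul_nonneg hp (sub_nonneg.2 h0)) (sq_nonneg (c - 3 / 4)),
    mul_nonneg (mul_nonneg hp (sub_nonneg.2 h1)) (sq_nonneg (c - 3 / 4)),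
    mul_nonneg hp hp, mul_nonneg (mul_nonneg hp hp) (sq_nonneg (c - 3 / 4))]

/-- The polynomial heart of the certificate. -/
lemma cert_disc {t c : ℝ} (ht : 0 ≤ t) (hc : 0 ≤ c) (h : t ^ 2 + c ^ 2 = 1) :
    0 < 4 * (157075 / 100000 - 18508 / 10000 * c - 2 / 5 * c * (2 - 3 * c ^ 2)
        - t * (1 - c) * (2 - c) / 3) * (2 / 5 * c + 1 / 25)
      - (c ^ 2 - 2 / 5 - 9254 / 10000 - 1 / 250 + t) ^ 2 := by
  have hc1 : c ≤ 1 := by nlinarith
  set U := -(62899609 / 25000000) + 130567 / 62500 * c - 7281 / 12500 * c ^ 2 + 24 / 125 * c ^ 3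
    + 23 / 25 * c ^ 4 with hU
  set V := 19141 / 7500 - 68 / 75 * c - 34 / 75 * c ^ 2 - 8 / 15 * c ^ 3 with hV
  have hV0 : 0 ≤ V := by
    have h2 : c ^ 2 ≤ 1 := pow_le_one₀ hc hc1
    have h3 : c ^ 3 ≤ 1 := pow_le_one₀ hc hc1
    rw [hV]; linarith
  suffices hs : 0 < U + V * t by
    refine lt_of_lt_of_le hs (le_of_eq ?_)
    rw [hU, hV]
    linear_combination (1 : ℝ) * h
  by_contra hn
  push Not at hn
  rcases le_total c (1 / 2) with h2 | h2
  · have hl := cert_low hc h2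
    have h4 : 2 * (1 - c ^ 2) ≤ t * (1 + (1 - c ^ 2)) := by
      rw [show 1 - c ^ 2 = t ^ 2 by linarith]; nlinarith [mul_nonneg ht (sq_nonneg (t - 1))]
    have h5 := mul_le_mul_of_nonneg_left h4 hV0
    have h6 : (1 + (1 - c ^ 2)) * (U + V * t) ≤ 0 :=
      mul_nonpos_of_nonneg_of_nonpos (by nlinarith) hn
    rw [hU, hV] at *
    linarith
  · have hl := cert_high h2 hc1
    have h4 : 6 / 5 * (1 - c ^ 2) ≤ t * (9 / 25 + (1 - c ^ 2)) := by
      rw [show 1 - c ^ 2 = t ^ 2 by linarith]; nlinarith [mul_nonneg ht (sq_nonneg (t - 3 / 5))]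
    have h5 := mul_le_mul_of_nonneg_left h4 hV0
    have h6 : (9 / 25 + (1 - c ^ 2)) * (U + V * t) ≤ 0 :=
      mul_nonpos_of_nonneg_of_nonpos (by nlinarith) hn
    rw [hU, hV] at *
    linarith

/-- The certificate. -/
lemma cert_pos {t e : ℝ} (ht : 0 ≤ t) (ht1 : t ≤ 1) (he : 0 ≤ e) :
    0 < π / 2 - 2 * (3 * π ^ 2 / 32) * √(1 - t ^ 2)
        - 2 / 5 * √(1 - t ^ 2) * (2 - 3 * √(1 - t ^ 2) ^ 2) - (arcsin t - t)
      + (√(1 - t ^ 2) ^ 2 - 2 / 5 - 3 * π ^ 2 / 32 + t) * e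
      + 2 / 5 * √(1 - t ^ 2) * e ^ 2 + e ^ 3 / 10 := by
  set c := √(1 - t ^ 2) with hc
  have hc0 : 0 ≤ c := sqrt_nonneg _
  have hsum : t ^ 2 + c ^ 2 = 1 := by
    rw [hc, sq_sqrt (by nlinarith)]; ring
  have hgap : arcsin t - t ≤ t * (1 - c) * (2 - c) / 3 := by
    have h := sin_gap (arcsin_nonneg.2 ht) (arcsin_le_pi_div_two t)
    rwa [sin_arcsin (by linarith) ht1, cos_arcsin] at h
  have hk : 3 * π ^ 2 / 32 ≤ 9254 / 10000 := by
    have := pi_lt_d4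
    have h2 : π ^ 2 ≤ (31416 / 10000) ^ 2 := by
      refine pow_le_pow_left₀ pi_pos.le ?_ 2
      linarith
    linarith
  have hh : 157075 / 100000 ≤ π / 2 := by linarith [pi_gt_d4]
  have hcube : 2 / 5 * e ^ 2 - e / 25 ≤ e ^ 3 := by
    nlinarith [mul_nonneg he (sq_nonneg (e - 1 / 5))]
  set A := 157075 / 100000 - 18508 / 10000 * c - 2 / 5 * c * (2 - 3 * c ^ 2)
    - t * (1 - c) * (2 - c) / 3 with hA
  set B := c ^ 2 - 2 / 5 - 9254 / 10000 - 1 / 250 + t with hB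
  set C := 2 / 5 * c + 1 / 25 with hC
  have hd : 0 < 4 * A * C - B ^ 2 := cert_disc ht hc0 hsum
  have hC0 : 0 < C := by rw [hC]; linarith
  have hq : 0 < A + B * e + C * e ^ 2 := by
    by_contra hn
    nlinarith [sq_nonneg (2 * C * e + B)]
  have h1 := mul_le_mul_of_nonneg_right hk hc0
  have h2 := mul_le_mul_of_nonneg_right hk he
  rw [hA, hB, hC] at hq
  linarith

end Vale.Agent.P237.Full
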