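import Vale.Agent.P237.Full.Three
import Vale.Agent.P237.Full.ProfileCert

/-!
# P237: the profile lemma in dimension three
-/

open MeasureTheory Set Real intervalIntegral

namespace Vale.Agent.P237.Full

lemma ii_bdd {g : ℝ → ℝ} (hg : ContinuousOn g (Ioo (0 : ℝ) 1)) {M : ℝ}
    (hM : ∀ t ∈ Ioo (0 : ℝ) 1, |g t| ≤ M) : IntervalIntegrable g volume 0 1 := by
  rw [intervalIntegrable_iff_integrableOn_Ioo_of_le zero_le_one]
  exact Integrable.mono' (integrableOn_const (C := M) measure_Ioo_lt_top.ne)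
    (hg.aestronglyMeasurable measurableSet_Ioo)
    ((ae_restrict_iff' measurableSet_Ioo).2 (Filter.Eventually.of_forall fun t ht => hM t ht))

lemma integral_semicircle {t : ℝ} (h0 : 0 ≤ t) (h1 : t ≤ 1) :
    ∫ x in (0 : ℝ)..t, √(1 - x ^ 2) = (arcsin t + t * √(1 - t ^ 2)) / 2 := by
  have h := integral_eq_sub_of_hasDerivAt_of_le h0
    (f := fun x => (arcsin x + x * √(1 - x ^ 2)) / 2) (f' := fun x => √(1 - x ^ 2))
    (by fun_prop) (fun x hx => ?_) (Continuous.intervalIntegrable (by fun_prop) _ _)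
  · simpa using h
  have hx1 : x < 1 := hx.2.trans_le h1
  have hp : 0 < 1 - x ^ 2 := by nlinarith [hx.1]
  have hs := (((hasDerivAt_pow 2 x).const_sub 1).sqrt hp.ne')
  refine ((Real.hasDerivAt_arcsin (by linarith [hx.1]) hx1.ne).add
    ((hasDerivAt_id x).mul hs) |>.div_const 2).congr_deriv ?_
  have hq : √(1 - x ^ 2) ≠ 0 := (sqrt_pos.2 hp).ne'
  have hsq := sq_sqrt hp.le
  field_simp
  norm_num
  linear_combination -2 * hsq

lemma integral_Icc_even {g : ℝ → ℝ} (hg : ∀ t, g (-t) = g t)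
    (hi : IntervalIntegrable g volume 0 1) :
    ∫ t in Icc (-1 : ℝ) 1, g t = 2 * ∫ t in (0 : ℝ)..1, g t := by
  have hn : IntervalIntegrable g volume (-1) 0 := by
    have h := (IntervalIntegrable.iff_comp_neg).1 hi
    simp only [neg_zero, hg] at h
    exact h.symm
  have he : ∫ t in (-1 : ℝ)..0, g t = ∫ t in (0 : ℝ)..1, g t := by
    have h := intervalIntegral.integral_comp_neg (f := g) (a := (-1 : ℝ)) (b := 0)
    simpa [hg] using h
  rw [integral_Icc_eq_integral_Ioc, ← intervalIntegral.integral_of_le (by norm_num),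
    ← integral_add_adjacent_intervals hn hi, he]
  ring

/-- The profile lemma on the half interval, with the equality case. -/
theorem profile_half {f : ℝ → ℝ} (hf : ConcaveOn ℝ (Icc (-1) 1) f) (hev : ∀ t, f (-t) = f t)
    (hlow : ∀ t ∈ Icc (-1 : ℝ) 1, √(1 - t ^ 2) ≤ f t)
    (hc : ∫ t in (0 : ℝ)..1, f t ^ 4 ≤ 4 * ∫ t in (0 : ℝ)..1, t ^ 2 * f t ^ 2) :
    3 * π ^ 2 / 32 * (∫ t in (0 : ℝ)..1, f t ^ 2) ≤ (∫ t in (0 : ℝ)..1, f t) ^ 2 ∧
      ((∫ t in (0 : ℝ)..1, f t) ^ 2 = 3 * π ^ 2 / 32 * ∫ t in (0 : ℝ)..1, f t ^ 2 →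
        ∀ t ∈ Ioo (0 : ℝ) 1, f t = √(1 - t ^ 2)) := by
  have hsub : Icc (0 : ℝ) 1 ⊆ Icc (-1) 1 := Icc_subset_Icc (by norm_num) le_rfl
  have hio : Ioo (0 : ℝ) 1 ⊆ Icc (0 : ℝ) 1 := Ioo_subset_Icc_self
  have hf0 : ∀ t ∈ Icc (-1 : ℝ) 1, 0 ≤ f t := fun t ht => (sqrt_nonneg _).trans (hlow t ht)
  have htop : ∀ t ∈ Icc (-1 : ℝ) 1, f t ≤ f 0 := by
    intro t ht
    have h := hf.2 ht (⟨by linarith [ht.2], by linarith [ht.1]⟩ : -t ∈ Icc (-1 : ℝ) 1)
      (show (0 : ℝ) ≤ 1 / 2 by norm_num) (show (0 : ℝ) ≤ 1 / 2 by norm_num) (by norm_num)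
    simp only [smul_eq_mul, hev] at h
    rw [show 1 / 2 * t + 1 / 2 * -t = 0 by ring] at h
    linarith
  have hone : 1 ≤ f 0 := by
    have := hlow 0 ⟨by norm_num, by norm_num⟩
    simpa using this
  have hcon : ContinuousOn f (Ioo 0 1) :=
    hf.continuousOn_interior.mono (by rw [interior_Icc]; exact Ioo_subset_Ioo (by norm_num) le_rfl)
  have hpow : ∀ k : ℕ, IntervalIntegrable (fun t => f t ^ k) volume 0 1 := fun k =>
    ii_bdd (hcon.pow k) (M := f 0 ^ k) fun t ht => by
      have h1 := hsub (hio ht)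
      rw [abs_of_nonneg (pow_nonneg (hf0 t h1) _)]
      exact pow_le_pow_left₀ (hf0 t h1) (htop t h1) k
  have i1 : IntervalIntegrable f volume 0 1 := by simpa using hpow 1
  have it2 : IntervalIntegrable (fun t => t ^ 2 * f t ^ 2) volume 0 1 :=
    (hpow 2).continuousOn_mul (by fun_prop)
  have ic : IntervalIntegrable (fun t : ℝ => √(1 - t ^ 2)) volume 0 1 :=
    Continuous.intervalIntegrable (by fun_prop) _ _
  set e : ℝ → ℝ := fun t => f t - √(1 - t ^ 2) with he
  have ie : IntervalIntegrable e volume 0 1 := i1.sub ic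
  have hecon : ContinuousOn e (Ioo 0 1) := hcon.sub (by fun_prop)
  have he0 : ∀ t ∈ Icc (0 : ℝ) 1, 0 ≤ e t := fun t ht => sub_nonneg.2 (hlow t (hsub ht))
  set El : ℝ → ℝ := fun t => ∫ x in (0 : ℝ)..t, e x with hEl
  have hElc : ContinuousOn El (uIcc 0 1) :=
    intervalIntegral.continuousOn_primitive_interval'
      (by simpa using ie) left_mem_uIcc
  have hEld : ∀ t ∈ Ioo (0 : ℝ) 1, HasDerivAt El (e t) t := fun t ht =>
    intervalIntegral.integral_hasDerivAt_right
      (ie.mono_set (by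
        rw [uIcc_of_le zero_le_one, uIcc_of_le ht.1.le]; exact Icc_subset_Icc le_rfl ht.2.le))
      (hecon.stronglyMeasurableAtFilter isOpen_Ioo t ht)
      (hecon.continuousAt (isOpen_Ioo.mem_nhds ht))
  have ieE : IntervalIntegrable (fun t => e t * El t) volume 0 1 := ie.mul_continuousOn hElc
  have hsqE : ∫ t in (0 : ℝ)..1, 2 * (e t * El t) = El 1 ^ 2 := by
    have h := integral_eq_sub_of_hasDerivAt_of_le zero_le_one (f := fun t => El t ^ 2)
      (f' := fun t => 2 * (e t * El t)) ((hElc.mono (by rw [uIcc_of_le zero_le_one])).pow 2)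
      (fun t ht => ((hEld t ht).pow 2).congr_deriv (by ring)) (ieE.const_mul 2)
    simpa [hEl] using h
  -- the chord bound for the primitive
  have hchord : ∀ t ∈ Ioo (0 : ℝ) 1, t * e t - (arcsin t - t) ≤ 2 * El t := by
    intro t ht
    have hsubt : uIcc (0 : ℝ) t ⊆ uIcc 0 1 := by
      rw [uIcc_of_le zero_le_one, uIcc_of_le ht.1.le]; exact Icc_subset_Icc le_rfl ht.2.le
    have h1 : t * (1 + f t) / 2 ≤ ∫ x in (0 : ℝ)..t, f x := by
      have hlin : ∫ x in (0 : ℝ)..t, (1 + (f t - 1) / t * x) = t * (1 + f t) / 2 := by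
        rw [integral_add _root_.intervalIntegrable_const
          (Continuous.intervalIntegrable (by fun_prop) _ _), intervalIntegral.integral_const_mul,
          integral_id]
        simp only [intervalIntegral.integral_const, sub_zero, smul_eq_mul, mul_one]
        field_simp [ht.1.ne']
        ring
      rw [← hlin]
      refine integral_mono_on ht.1.le (Continuous.intervalIntegrable (by fun_prop) _ _)
        (i1.mono_set hsubt) fun x hx => ?_
      have hxt : x / t ≤ 1 := (div_le_one ht.1).2 hx.2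
      have hx0 : 0 ≤ x / t := div_nonneg hx.1 ht.1.le
      have h := hf.2 (⟨by norm_num, by norm_num⟩ : (0 : ℝ) ∈ Icc (-1 : ℝ) 1) (hsub (hio ht))
        (sub_nonneg.2 hxt) hx0 (by ring)
      simp only [smul_eq_mul, mul_zero, zero_add, div_mul_cancel₀ x ht.1.ne'] at h
      calc 1 + (f t - 1) / t * x = (1 - x / t) * 1 + x / t * f t := by ring
        _ ≤ _ := le_trans (by gcongr) h
    have h2 : El t = (∫ x in (0 : ℝ)..t, f x) - (arcsin t + t * √(1 - t ^ 2)) / 2 := by
      rw [hEl, ← integral_semicircle ht.1.le ht.2.le]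
      exact integral_sub (i1.mono_set hsubt) (ic.mono_set hsubt)
    rw [he] at *
    dsimp only
    linarith
  -- the integrand
  set W : ℝ → ℝ := fun t => π / 2 * e t - 3 * π ^ 2 / 32 * (f t ^ 2 - (1 - t ^ 2))
    + e t * (t * e t - (arcsin t - t))
    + 1 / 10 * (f t ^ 4 - 4 * (t ^ 2 * f t ^ 2) - (1 - 6 * t ^ 2 + 5 * t ^ 4)) with hW
  have ia : IntervalIntegrable (fun t => e t * (t * e t - (arcsin t - t))) volume 0 1 := by
    refine ii_bdd (M := f 0 * (f 0 + (π / 2 + 1))) (hecon.mul ((continuousOn_id.mul hecon).sub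
      (by fun_prop))) fun t ht => ?_
    have h1 := htop t (hsub (hio ht))
    have h2 := he0 t (hio ht)
    have h3 : e t ≤ f 0 := by simp only [he]; linarith [sqrt_nonneg (1 - t ^ 2)]
    rw [abs_mul, abs_of_nonneg h2]
    refine mul_le_mul h3 (abs_le.2 ⟨?_, ?_⟩) (abs_nonneg _) (by linarith)
    · linarith [arcsin_le_pi_div_two t, mul_nonneg ht.1.le h2, ht.1, pi_pos]
    · nlinarith [arcsin_nonneg.2 ht.1.le, ht.1, ht.2, pi_pos]
  have iW : IntervalIntegrable W volume 0 1 :=
    (((ie.const_mul _).sub (((hpow 2).sub (Continuous.intervalIntegrable (by fun_prop) _ _)).const_mul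
      _)).add ia).add ((((hpow 4).sub (it2.const_mul 4)).sub
        (Continuous.intervalIntegrable (by fun_prop) _ _)).const_mul _)
  have hpos : ∀ t ∈ Ioo (0 : ℝ) 1, 0 ≤ W t ∧ (0 < e t → 0 < W t) := by
    intro t ht
    have hq := cert_pos ht.1.le ht.2.le (he0 t (hio ht))
    have hs := sq_sqrt (show 0 ≤ 1 - t ^ 2 by nlinarith [ht.1, ht.2])
    have hWq : W t = e t * (π / 2 - 2 * (3 * π ^ 2 / 32) * √(1 - t ^ 2)
        - 2 / 5 * √(1 - t ^ 2) * (2 - 3 * √(1 - t ^ 2) ^ 2) - (arcsin t - t)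
      + (√(1 - t ^ 2) ^ 2 - 2 / 5 - 3 * π ^ 2 / 32 + t) * e t
      + 2 / 5 * √(1 - t ^ 2) * e t ^ 2 + e t ^ 3 / 10) := by
      simp only [hW, he]
      generalize √(1 - t ^ 2) = c at hs ⊢
      linear_combination (1 / 2 * c ^ 2 - 1 / 2 * t ^ 2 + 1 / 10 - 2 / 5 * f t ^ 2 - 3 * π ^ 2 / 32) * hs
    rw [hWq]
    exact ⟨mul_nonneg (he0 t (hio ht)) hq.le, fun h => mul_pos h hq⟩
  set F := ∫ t in (0 : ℝ)..1, f t with hF
  set Q := ∫ t in (0 : ℝ)..1, f t ^ 2 with hQ
  have hpoly2 : ∫ t in (0 : ℝ)..1, (1 - t ^ 2) = 2 / 3 := by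
    rw [integral_sub _root_.intervalIntegrable_const (Continuous.intervalIntegrable (by fun_prop) _ _),
      integral_pow]
    simp; norm_num
  have hpoly4 : ∫ t in (0 : ℝ)..1, (1 - 6 * t ^ 2 + 5 * t ^ 4) = 0 := by
    rw [integral_add (Continuous.intervalIntegrable (by fun_prop) _ _)
      (Continuous.intervalIntegrable (by fun_prop) _ _),
      integral_sub _root_.intervalIntegrable_const (Continuous.intervalIntegrable (by fun_prop) _ _),
      intervalIntegral.integral_const_mul, intervalIntegral.integral_const_mul, integral_pow,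
      integral_pow]
    simp; norm_num
  have hEl1 : El 1 = F - π / 4 := by
    rw [hEl]
    simp only [he]
    rw [integral_sub i1 ic, integral_semicircle zero_le_one le_rfl]
    simp [hF]
    ring
  have hle : ∫ t in (0 : ℝ)..1, W t ≤ F ^ 2 - 3 * π ^ 2 / 32 * Q := by
    have hA : ∫ t in (0 : ℝ)..1, e t * (t * e t - (arcsin t - t)) ≤ El 1 ^ 2 := by
      rw [← hsqE]
      refine integral_mono_on_of_le_Ioo zero_le_one ia (ieE.const_mul 2) fun t ht => ?_
      have := mul_le_mul_of_nonneg_left (hchord t ht) (he0 t (hio ht))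
      linarith
    have he1 : ∫ t in (0 : ℝ)..1, e t = F - π / 4 := hEl1
    rw [hW]
    rw [integral_add (((ie.const_mul _).sub (((hpow 2).sub
        (Continuous.intervalIntegrable (by fun_prop) _ _)).const_mul _)).add ia)
        ((((hpow 4).sub (it2.const_mul 4)).sub
        (Continuous.intervalIntegrable (by fun_prop) _ _)).const_mul _),
      integral_add ((ie.const_mul _).sub (((hpow 2).sub
        (Continuous.intervalIntegrable (by fun_prop) _ _)).const_mul _)) ia,
      integral_sub (ie.const_mul _) (((hpow 2).sub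
        (Continuous.intervalIntegrable (by fun_prop) _ _)).const_mul _),
      intervalIntegral.integral_const_mul, intervalIntegral.integral_const_mul,
      intervalIntegral.integral_const_mul,
      integral_sub (hpow 2) (Continuous.intervalIntegrable (by fun_prop) _ _),
      integral_sub ((hpow 4).sub (it2.const_mul 4))
        (Continuous.intervalIntegrable (by fun_prop) _ _),
      integral_sub (hpow 4) (it2.const_mul 4), intervalIntegral.integral_const_mul,
      he1, hpoly2, hpoly4]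
    rw [hEl1] at hA
    nlinarith
  have h0 : 0 ≤ ∫ t in (0 : ℝ)..1, W t := by
    have h := integral_mono_on_of_le_Ioo zero_le_one (_root_.intervalIntegrable_const (c := (0 : ℝ)))
      iW fun t ht => (hpos t ht).1
    simpa using h
  refine ⟨by linarith, fun heq t ht => ?_⟩
  have hz : ∫ t in (0 : ℝ)..1, W t = 0 := le_antisymm (by linarith) h0
  have hnn : 0 ≤ᵐ[volume.restrict (Ioo (0 : ℝ) 1)] W :=
    (ae_restrict_iff' measurableSet_Ioo).2 (Filter.Eventually.of_forall fun x hx => (hpos x hx).1)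
  rw [intervalIntegral.integral_of_le zero_le_one, ← integral_Ioc_eq_integral_Ioo.symm] at hz
  have hae := (setIntegral_eq_zero_iff_of_nonneg_ae hnn
    ((intervalIntegrable_iff_integrableOn_Ioo_of_le zero_le_one).1 iW)).1
    (by simpa [integral_Ioc_eq_integral_Ioo] using hz)
  have heae : f =ᵐ[volume.restrict (Ioo (0 : ℝ) 1)] fun x => √(1 - x ^ 2) := by
    filter_upwards [hae, ae_restrict_mem measurableSet_Ioo] with x hx hm
    by_contra h
    exact ((hpos x hm).2 (lt_of_le_of_ne (he0 x (hio hm)) fun h' => h (sub_eq_zero.1 h'.symm))).ne' hx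
  exact Measure.eqOn_open_of_ae_eq heae isOpen_Ioo hcon (by fun_prop) ht

/-- The profile lemma in dimension three. -/
theorem profileThree : ProfileThree := by
  intro f hf hev hlow hc
  have hM : ∀ k : ℕ, IntervalIntegrable (fun t => f t ^ k) volume 0 1 := by
    intro k
    have hsub : Ioo (0 : ℝ) 1 ⊆ Icc (-1) 1 := fun t ht => ⟨by linarith [ht.1], ht.2.le⟩
    refine ii_bdd ((hf.continuousOn_interior.mono (by
      rw [interior_Icc]; exact Ioo_subset_Ioo (by norm_num) le_rfl)).pow k) (M := f 0 ^ k)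
      fun t ht => ?_
    have h0 : 0 ≤ f t := (sqrt_nonneg _).trans (hlow t (hsub ht))
    rw [abs_of_nonneg (pow_nonneg h0 _)]
    refine pow_le_pow_left₀ h0 ?_ k
    have h := hf.2 (hsub ht) (⟨by linarith [ht.2], by linarith [ht.1]⟩ : -t ∈ Icc (-1 : ℝ) 1)
      (show (0 : ℝ) ≤ 1 / 2 by norm_num) (show (0 : ℝ) ≤ 1 / 2 by norm_num) (by norm_num)
    simp only [smul_eq_mul, hev] at h
    rw [show 1 / 2 * t + 1 / 2 * -t = 0 by ring] at h
    linarith
  have e4 := integral_Icc_even (g := fun t => f t ^ 4) (fun t => by simp only [hev]) (hM 4)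
  have e2 := integral_Icc_even (g := fun t => f t ^ 2) (fun t => by simp only [hev]) (hM 2)
  have e22 := integral_Icc_even (g := fun t => t ^ 2 * f t ^ 2)
    (fun t => by simp only [hev, neg_sq]) ((hM 2).continuousOn_mul (by fun_prop))
  have e1 := integral_Icc_even (g := f) hev (by simpa using hM 1)
  rw [e4, e22] at hc
  obtain ⟨hle, heq⟩ := profile_half hf hev hlow (by linarith)
  rw [e1, e2]
  refine ⟨by nlinarith, fun h t ht => ?_⟩
  have h' := heq (by nlinarith)
  rcases lt_trichotomy t 0 with hn | rfl | hp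
  · have := h' (-t) ⟨by linarith, by linarith [ht.1]⟩
    rw [hev, neg_sq] at this
    exact this.le
  · simp only [ne_eq, OfNat.ofNat_ne_zero, not_false_eq_true, zero_pow, sub_zero, sqrt_one]
    refine le_of_forall_pos_le_add fun ε hε => ?_
    set x := min ε (1 / 2) with hx
    have x0 : 0 < x := lt_min hε (by norm_num)
    have x1 : x ≤ 1 / 2 := min_le_right _ _
    have h3 := hf.2 (⟨by norm_num, by norm_num⟩ : (0 : ℝ) ∈ Icc (-1 : ℝ) 1)
      (⟨by linarith, by linarith⟩ : x ∈ Icc (-1 : ℝ) 1) (show (0 : ℝ) ≤ 1 / 2 by norm_num)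
      (show (0 : ℝ) ≤ 1 / 2 by norm_num) (by norm_num)
    simp only [smul_eq_mul, mul_zero, zero_add] at h3
    rw [h' x ⟨x0, by linarith⟩, h' (1 / 2 * x) ⟨by linarith, by linarith⟩] at h3
    have h4 : √(1 - (1 / 2 * x) ^ 2) ≤ 1 := Real.sqrt_le_one.2 (by nlinarith)
    have h5 : 1 - x ≤ √(1 - x ^ 2) := Real.le_sqrt_of_sq_le (by nlinarith)
    linarith [min_le_left ε (1 / 2)]
  · exact (h' t ⟨hp, ht.2⟩).le

end Vale.Agent.P237.Full
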