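import Vale.Agent.P237.Full.Area

/-!
The one-dimensional inequality in dimension three, reduced to a pointwise inequality.
-/

open MeasureTheory Set Real intervalIntegral

namespace Vale.Agent.P237

/-- The pointwise expression: `e` is the excess at `t`, `η` the total excess. -/
noncomputable def excessW (mu s b t e η : ℝ) : ℝ :=
  e * (8 / π - 3 / 2 * (2 * semi t + e)
    + mu * ((2 - 6 * t ^ 2) * (2 * semi t + e) + e * (2 * semi t + e) ^ 2)
    + 16 / π ^ 2 * η - s) + b * η

/-- The reduction. A certificate is a positivity proof for `excessW` under the area bounds. -/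
theorem profile_of_cert {f : ℝ → ℝ} (hf : Above f)
    (hmom : ∫ t in (0 : ℝ)..1, f t ^ 4 ≤ 4 * ∫ t in (0 : ℝ)..1, t ^ 2 * f t ^ 2)
    {mu : ℝ} (hmu : 0 ≤ mu) {β : ℝ → ℝ} (hβ : IntervalIntegrable β volume 0 1)
    (hβ0 : ∀ t ∈ Icc (0 : ℝ) 1, 0 ≤ β t)
    (cert : ∀ t ∈ Icc (0 : ℝ) 1, ∀ e η r : ℝ, 0 < e → 0 ≤ r →
      r ^ 2 = e * (2 * semi t + e) →
      (r * (semi t + e) ≤ t → 5 * r ^ 3 / (15 + 9 * r ^ 2) ≤ η) →
      max 0 ((semi t + e) * t - t + t ^ 3 / 6) +
        max 0 ((5 * r ^ 3 / (15 + 9 * r ^ 2) - t * e * (1 - (√(1 + r ^ 2))⁻¹)) / 2) ≤ η →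
      0 < excessW mu (∫ x in (0 : ℝ)..1, β x) (β t) t e η) :
    3 * π ^ 2 / 32 * (∫ t in (0 : ℝ)..1, f t ^ 2) ≤ (∫ t in (0 : ℝ)..1, f t) ^ 2 ∧
      (3 * π ^ 2 / 32 * (∫ t in (0 : ℝ)..1, f t ^ 2) = (∫ t in (0 : ℝ)..1, f t) ^ 2 →
        ∀ t ∈ Ico (0 : ℝ) 1, f t = semi t) := by
  set η := ∫ x in (0 : ℝ)..1, (f x - semi x) with hη
  set s := ∫ x in (0 : ℝ)..1, β x with hs
  have hsq : ∀ t ∈ Icc (0 : ℝ) 1, semi t ^ 2 = 1 - t ^ 2 := fun t ht =>
    Real.sq_sqrt (by nlinarith [ht.1, ht.2])
  have hanti : ∀ k : ℕ, IntervalIntegrable (fun x => f x ^ k) volume 0 1 := fun k =>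
    AntitoneOn.intervalIntegrable (by
      rw [uIcc_of_le zero_le_one]
      intro a ha b hb hab
      exact pow_le_pow_left₀ ((semi_nonneg b).trans (hf.le b hb)) (hf.anti ha hb hab) k)
  have if1 : IntervalIntegrable f volume 0 1 := by simpa using hanti 1
  have ig : ∀ k : ℕ, IntervalIntegrable (fun x => semi x ^ k) volume 0 1 := fun k =>
    (semi_continuous.pow k).intervalIntegrable _ _
  have hη0 : 0 ≤ η := integral_nonneg zero_le_one fun x hx => sub_nonneg.2 (hf.le x hx)
  -- the pointwise inequality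
  have hW : ∀ t ∈ Icc (0 : ℝ) 1, 0 ≤ excessW mu s (β t) t (f t - semi t) η ∧
      (semi t < f t → 0 < excessW mu s (β t) t (f t - semi t) η) := by
    intro t ht
    have key : semi t < f t → 0 < excessW mu s (β t) t (f t - semi t) η := by
      intro hlt
      set r := √((f t - semi t) * (2 * semi t + (f t - semi t))) with hr
      have hp : 0 ≤ (f t - semi t) * (2 * semi t + (f t - semi t)) :=
        mul_nonneg (sub_nonneg.2 hlt.le) (by linarith [semi_nonneg t])
      have hr0 : 0 ≤ r := Real.sqrt_nonneg _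
      have hr2 : r ^ 2 = t ^ 2 + f t ^ 2 - 1 := by
        rw [hr, Real.sq_sqrt hp]; nlinarith [hsq t ht]
      refine cert t ht _ η r (sub_pos.2 hlt) hr0 (Real.sq_sqrt hp) (fun h => ?_) ?_
      · rw [add_sub_cancel] at h
        exact (arctan_gap hr0).trans (area_full hf ht hr0 hr2 h)
      · rw [add_sub_cancel]
        refine le_trans (add_le_add le_rfl (max_le_max le_rfl ?_)) (area_clipped hf ht hr0 hr2)
        linarith [arctan_gap hr0]
    refine ⟨?_, key⟩
    rcases (hf.le t ht).eq_or_lt with h | h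
    · rw [excessW, ← h, sub_self, zero_mul, zero_add]
      exact mul_nonneg (hβ0 t ht) hη0
    · exact (key h).le
  -- integrals
  have e1 : ∫ t in (0 : ℝ)..1, semi t = π / 4 := by
    rw [integral_semi (by norm_num) zero_le_one le_rfl]; simp [semi]; ring
  set D := fun t => f t ^ 2 - semi t ^ 2 with hD
  have iD : IntervalIntegrable D volume 0 1 := (hanti 2).sub (ig 2)
  have ie : IntervalIntegrable (fun t => f t - semi t) volume 0 1 :=
    if1.sub (semi_continuous.intervalIntegrable _ _)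
  have iq : IntervalIntegrable (fun t => t ^ 2 * f t ^ 2) volume 0 1 :=
    (hanti 2).continuousOn_mul (by fun_prop)
  have iJ : IntervalIntegrable (fun t => f t ^ 4 - 4 * (t ^ 2 * f t ^ 2)
      - (1 - 6 * t ^ 2 + 5 * t ^ 4)) volume 0 1 :=
    ((hanti 4).sub (iq.const_mul 4)).sub (Continuous.intervalIntegrable (by fun_prop) _ _)
  have eD : ∫ t in (0 : ℝ)..1, D t = (∫ t in (0 : ℝ)..1, f t ^ 2) - 2 / 3 := by
    rw [hD, integral_sub (hanti 2) (ig 2)]
    congr 1
    rw [integral_congr (g := fun t => 1 - t ^ 2) fun t ht => hsq t (by rwa [uIcc_of_le zero_le_one] at ht),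
      integral_sub _root_.intervalIntegrable_const (Continuous.intervalIntegrable (by fun_prop) _ _),
      integral_pow]
    simp
    norm_num
  have eJ : ∫ t in (0 : ℝ)..1, (f t ^ 4 - 4 * (t ^ 2 * f t ^ 2) - (1 - 6 * t ^ 2 + 5 * t ^ 4)) ≤ 0 := by
    rw [integral_sub ((hanti 4).sub (iq.const_mul 4)) (Continuous.intervalIntegrable (by fun_prop) _ _),
      integral_sub (hanti 4) (iq.const_mul 4), intervalIntegral.integral_const_mul]
    have : ∫ t in (0 : ℝ)..1, (1 - 6 * t ^ 2 + 5 * t ^ 4) = 0 := by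
      rw [integral_add (Continuous.intervalIntegrable (by fun_prop) _ _)
        (Continuous.intervalIntegrable (by fun_prop) _ _),
        integral_sub _root_.intervalIntegrable_const (Continuous.intervalIntegrable (by fun_prop) _ _),
        intervalIntegral.integral_const_mul, intervalIntegral.integral_const_mul, integral_pow,
        integral_pow]
      simp
      norm_num
    linarith
  have eW : EqOn (fun t => excessW mu s (β t) t (f t - semi t) η)
      (fun t => (8 / π + 16 / π ^ 2 * η - s) * (f t - semi t) - 3 / 2 * D t +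
        mu * (f t ^ 4 - 4 * (t ^ 2 * f t ^ 2) - (1 - 6 * t ^ 2 + 5 * t ^ 4)) + η * β t)
      (uIcc 0 1) := fun t ht => by
    rw [uIcc_of_le zero_le_one] at ht
    have := hsq t ht
    simp only [excessW, hD]
    linear_combination mu * (semi t ^ 2 - 1 + 5 * t ^ 2 - 2 * f t ^ 2) * this
  have iW : IntervalIntegrable (fun t => excessW mu s (β t) t (f t - semi t) η) volume 0 1 :=
    ((((ie.const_mul _).sub (iD.const_mul _)).add (iJ.const_mul _)).add (hβ.const_mul _)).congr
      (fun t ht => (eW (uIoc_subset_uIcc ht)).symm)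
  set F := ∫ t in (0 : ℝ)..1, f t with hF
  set Q := ∫ t in (0 : ℝ)..1, f t ^ 2 with hQ
  have eη : η = F - π / 4 := by
    rw [hη, integral_sub if1 (semi_continuous.intervalIntegrable _ _), e1]
  have hint : π ^ 2 / 16 * ∫ t in (0 : ℝ)..1, excessW mu s (β t) t (f t - semi t) η ≤
      F ^ 2 - 3 * π ^ 2 / 32 * Q := by
    rw [integral_congr eW, integral_add (((ie.const_mul _).sub (iD.const_mul _)).add (iJ.const_mul _))
      (hβ.const_mul _), integral_add ((ie.const_mul _).sub (iD.const_mul _)) (iJ.const_mul _),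
      integral_sub (ie.const_mul _) (iD.const_mul _)]
    simp only [intervalIntegral.integral_const_mul, ← hη, ← hs, eD]
    have hJ := mul_nonpos_of_nonneg_of_nonpos hmu eJ
    have e : F ^ 2 - 3 * π ^ 2 / 32 * Q = π ^ 2 / 16 *
        ((8 / π + 16 / π ^ 2 * η - s) * η - 3 / 2 * (Q - 2 / 3) + η * s) := by
      rw [eη]; field_simp; ring
    rw [e]
    exact mul_le_mul_of_nonneg_left (by linarith) (by positivity)
  have h0 : 0 ≤ ∫ t in (0 : ℝ)..1, excessW mu s (β t) t (f t - semi t) η :=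
    integral_nonneg zero_le_one fun t ht => (hW t ht).1
  refine ⟨by nlinarith [mul_nonneg (sq_nonneg π) h0], fun heq t ht => ?_⟩
  have hz : ∫ t in (0 : ℝ)..1, excessW mu s (β t) t (f t - semi t) η = 0 := by
    refine le_antisymm ?_ h0
    refine le_of_mul_le_mul_left ?_ (show 0 < π ^ 2 / 16 by positivity)
    rw [mul_zero]
    linarith
  have hae := (integral_eq_zero_iff_of_le_of_nonneg_ae zero_le_one
    ((ae_restrict_iff' measurableSet_Ioc).2 (Filter.Eventually.of_forall fun x hx =>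
      (hW x (Ioc_subset_Icc_self hx)).1)) iW).1 hz
  have heqae : ∀ᵐ x ∂volume.restrict (Ioo (0 : ℝ) 1), f x = semi x := by
    filter_upwards [ae_restrict_of_ae_restrict_of_subset Ioo_subset_Ioc_self hae,
      ae_restrict_mem measurableSet_Ioo] with x hx hm
    by_contra h
    exact absurd hx ((hW x (Ioo_subset_Icc_self hm)).2
      (lt_of_le_of_ne (hf.le x (Ioo_subset_Icc_self hm)) (Ne.symm h))).ne'
  have hcont : ContinuousOn f (Ioo 0 1) := by
    simpa [interior_Icc] using hf.concave.continuousOn_interior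
  have hoo : EqOn f semi (Ioo 0 1) :=
    Measure.eqOn_open_of_ae_eq heqae isOpen_Ioo hcont semi_continuous.continuousOn
  rcases ht.1.eq_or_lt with h | h
  · subst h
    refine le_antisymm ?_ (hf.le 0 ⟨le_rfl, zero_le_one⟩)
    have hs0 : semi 0 = 1 := by simp [semi]
    refine le_of_forall_pos_le_add fun ε hε => ?_
    set x := min ε (1 / 2) with hx
    have x0 : 0 < x := lt_min hε (by norm_num)
    have x1 : x < 1 := (min_le_right _ _).trans_lt (by norm_num)
    have h := hf.concave.2 (left_mem_Icc.2 zero_le_one) ⟨x0.le, x1.le⟩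
      (show (0 : ℝ) ≤ 1 / 2 by norm_num) (show (0 : ℝ) ≤ 1 / 2 by norm_num) (by norm_num)
    simp only [smul_eq_mul, mul_zero, zero_add] at h
    rw [hoo ⟨x0, x1⟩, hoo (show 1 / 2 * x ∈ Ioo (0 : ℝ) 1 from ⟨by linarith, by linarith⟩)] at h
    have h1 : semi (1 / 2 * x) ≤ 1 := Real.sqrt_le_one.2 (by nlinarith)
    have h2 : 1 - x ≤ semi x := Real.le_sqrt_of_sq_le (by nlinarith)
    have := min_le_left ε (1 / 2)
    linarith
  · exact hoo ⟨h, ht.2⟩

end Vale.Agent.P237
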