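import Vale.Agent.P237.Full.Minimiser
import Vale.Agent.P237.Full.Position
import Vale.Agent.P237.Full.Shadow
import Vale.Agent.P237.Full.Class

/-!
# P237: assembly of Petty's inequality in space from the profile lemma
-/

open MeasureTheory Set Filter Topology Metric
open scoped RealInnerProductSpace Pointwise

namespace Vale.Agent.P237.Full

/-- The one-dimensional profile lemma in dimension three. -/
def ProfileThree : Prop :=
  ∀ f : ℝ → ℝ, ConcaveOn ℝ (Icc (-1) 1) f → (∀ t, f (-t) = f t) →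
    (∀ t ∈ Icc (-1 : ℝ) 1, √(1 - t ^ 2) ≤ f t) →
    ∫ t in Icc (-1 : ℝ) 1, f t ^ 4 ≤ 4 * ∫ t in Icc (-1 : ℝ) 1, t ^ 2 * f t ^ 2 →
    3 * Real.pi ^ 2 / 16 * ∫ t in Icc (-1 : ℝ) 1, f t ^ 2 ≤ (∫ t in Icc (-1 : ℝ) 1, f t) ^ 2 ∧
      ((∫ t in Icc (-1 : ℝ) 1, f t) ^ 2 = 3 * Real.pi ^ 2 / 16 * ∫ t in Icc (-1 : ℝ) 1, f t ^ 2 →
        ∀ t ∈ Ioo (-1 : ℝ) 1, f t ≤ √(1 - t ^ 2))

/-- `Π` does not increase the ratio, with the equality case. -/
lemma proj_step {K : Set (E 3)} (hK : Body K) (hi : (interior K).Nonempty) :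
    ratio (projBody K) ≤ ratio K ∧ (ratio (projBody K) = ratio K →
      ∃ (a : E 3) (s : ℝ), K = a +ᵥ s • projBody (projBody K)) := by
  obtain ⟨z, hK'⟩ := exists_cen hK hi
  have h1 := ratio_projBody_le (m := 1) hK'
  rw [projBody_vadd hK z, ratio_vadd hK z] at h1
  refine ⟨h1, fun he => ?_⟩
  obtain ⟨g, s, -, hg, -⟩ := eq_of_ratio_le (m := 1) hK'
    (by rw [projBody_vadd hK z, ratio_vadd hK z, he])
  refine ⟨g - z, s, ?_⟩
  rw [show wulff (projVol (projBody (z +ᵥ K))) = projBody (projBody (z +ᵥ K)) from rfl,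
    projBody_vadd hK z] at hg
  rw [sub_eq_add_neg, add_comm g (-z), ← vadd_vadd, ← hg, neg_vadd_vadd]

lemma supp_even {Z : Set (E 3)} (hZ : Cen Z) (hs : ∀ x ∈ Z, -x ∈ Z) (u : E 3) :
    supp Z (-u) = supp Z u := by
  have hne : Z.Nonempty := ⟨0, interior_subset hZ.int⟩
  obtain ⟨⟨k, hk, e⟩, h⟩ := supp_spec hZ.cpt hne (-u)
  obtain ⟨⟨k', hk', e'⟩, h'⟩ := supp_spec hZ.cpt hne u
  refine le_antisymm ?_ ?_
  · rw [e, inner_neg_left, ← inner_neg_right]; exact h' _ (hs k hk)
  · have := h _ (hs k' hk')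
    rw [inner_neg_neg] at this
    rwa [e']

/-- At a symmetric minimiser `Π² Z` is a multiple of `Z`. -/
lemma symm_structure {Z : Set (E 3)} (hZ : Cen Z) (hs : ∀ x ∈ Z, -x ∈ Z)
    (hmin : ∀ K : Set (E 3), Body K → (interior K).Nonempty → ratio Z ≤ ratio K) (u : E 3) :
    projVol (projBody Z) u =
      (volume (projBody Z)).toReal / (volume Z).toReal * supp Z u := by
  obtain ⟨g, Z', hgZ, hZ', hs', -, h⟩ :=
    minimiser_structure (m := 1) hZ.toBody ⟨0, hZ.int⟩ hmin
  have h2 : ∀ v : E 3, supp Z v = ⟪v, g⟫ + supp Z' v := fun v => by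
    rw [hgZ, supp_vadd hZ'.cpt ⟨0, interior_subset hZ'.int⟩]
  have h3 := h2 (-g)
  rw [supp_even hZ hs, h2 g, supp_even hZ' hs', inner_neg_left] at h3
  have hg : g = 0 := inner_self_eq_zero.1 (show ⟪g, g⟫ = 0 by linarith)
  rw [hg, zero_vadd] at hgZ
  rw [hgZ]
  exact h u

lemma volume_ball_three {r : ℝ} (hr : 0 ≤ r) :
    (volume (closedBall (0 : E 3) r)).toReal = 4 * Real.pi / 3 * r ^ 3 := by
  rw [Frame.volume_ball_eq hr]
  have h : Statement.ballVol 3 = 2 * Real.pi / (((0 : ℕ) : ℝ) + 3) * Statement.ballVol (0 + 1) :=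
    ballVol_rec 0
  rw [h, ballVol_one]
  push_cast
  ring

lemma proj_closedBall {ν : E 3} (F : Frame ν) (r : ℝ) (_hr : 0 ≤ r) :
    F.proj '' closedBall 0 r = closedBall 0 r := by
  ext y
  simp only [mem_image, mem_closedBall_zero_iff]
  constructor
  · rintro ⟨x, hx, rfl⟩
    refine le_trans ?_ hx
    refine (pow_le_pow_iff_left₀ (norm_nonneg _) (norm_nonneg _) two_ne_zero).1 ?_
    obtain ⟨⟨t, y⟩, rfl⟩ := F.S.surjective x
    rw [F.proj_S, F.norm_sq_S]
    nlinarith
  · intro hy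
    exact ⟨F.S (0, y), by rwa [F.norm_hyper], F.proj_S 0 y⟩

lemma projVol_closedBall {r : ℝ} (hr : 0 ≤ r) (u : E 3) :
    projVol (closedBall (0 : E 3) r) u = ‖u‖ * (Real.pi * r ^ 2) := by
  rcases eq_or_ne u 0 with rfl | hu
  · simp [projVol]
  obtain ⟨F⟩ := exists_frame (ν := ‖u‖⁻¹ • u) (norm_smul_inv_norm hu)
  have h := F.projVol_eq (closedBall (0 : E 3) r) ‖u‖
  rw [smul_smul, mul_inv_cancel₀ (norm_ne_zero_iff.2 hu), one_smul] at h
  rw [h, proj_closedBall F r hr, Frame.volume_ball_eq hr, ballVol_two, abs_norm]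

lemma projBody_closedBall {r : ℝ} (hr : 0 ≤ r) :
    projBody (closedBall (0 : E 3) r) = closedBall 0 (Real.pi * r ^ 2) := by
  ext y
  simp only [projBody, mem_ofPred_eq, projVol_closedBall hr, mem_closedBall_zero_iff]
  constructor
  · intro h
    rcases eq_or_ne y 0 with rfl | hy
    · simp; positivity
    have := h y
    rw [real_inner_self_eq_norm_sq] at this
    exact le_of_mul_le_mul_left (by linarith) (norm_pos_iff.2 hy)
  · intro h u
    calc ⟪y, u⟫ ≤ ‖y‖ * ‖u‖ := real_inner_le_norm _ _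
      _ ≤ _ := by rw [mul_comm ‖u‖]; exact mul_le_mul_of_nonneg_right h (norm_nonneg _)

lemma ratio_ball {r : ℝ} (hr : 0 < r) : ratio (closedBall (0 : E 3) r) = 3 * Real.pi ^ 2 / 4 := by
  rw [ratio, projBody_closedBall hr.le, volume_ball_three (by positivity), volume_ball_three hr.le]
  norm_num
  field_simp

lemma projBody_image (T : E 3 ≃L[ℝ] E 3) {r : ℝ} (hr : 0 ≤ r) :
    ∃ S : E 3 →ₗ[ℝ] E 3, Function.Injective S ∧
      projBody (T '' closedBall 0 r) = S '' closedBall 0 1 ∨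
        projBody (T '' closedBall 0 r) = {0} := by
  set D := |LinearMap.det (T.toLinearEquiv : E 3 →ₗ[ℝ] E 3)|
  have hD0 : 0 < D := abs_pos.2 T.toLinearEquiv.isUnit_det'.ne_zero
  set f := LinearMap.adjoint (T.toLinearEquiv : E 3 →ₗ[ℝ] E 3) with hf
  have hinj : Function.Injective f := by
    rw [← LinearMap.ker_eq_bot, LinearMap.ker_eq_bot']
    intro x hx
    have h := LinearMap.adjoint_inner_left (T.toLinearEquiv : E 3 →ₗ[ℝ] E 3) (T.symm x) x
    rw [← hf, hx, inner_zero_left, show (T.toLinearEquiv : E 3 →ₗ[ℝ] E 3) (T.symm x) = x from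
      T.apply_symm_apply x] at h
    exact inner_self_eq_zero.1 h.symm
  set g := (LinearEquiv.ofInjectiveEndo f hinj).symm with hg
  set c := D * (Real.pi * r ^ 2) with hc
  have hp : projBody (T '' closedBall 0 r) = f ⁻¹' closedBall 0 c := by
    ext y
    have hB : Body (closedBall (0 : E 3) r) := ⟨convex_closedBall _ _, isCompact_closedBall _ _⟩
    simp only [projBody, mem_ofPred_eq, projVol_image T hB, projVol_closedBall hr, mem_preimage,
      mem_closedBall_zero_iff]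
    constructor
    · intro h
      rcases eq_or_ne (f y) 0 with h0 | h0
      · rw [h0, norm_zero]; positivity
      have := h (T (f y))
      rw [T.symm_apply_apply, show ⟪y, T (f y)⟫ = ⟪f y, f y⟫ from
        (LinearMap.adjoint_inner_left _ _ _).symm, real_inner_self_eq_norm_sq] at this
      exact le_of_mul_le_mul_left (by linarith) (norm_pos_iff.2 h0)
    · intro h u
      have e : ⟪y, u⟫ = ⟪f y, T.symm u⟫ := by
        rw [hf, LinearMap.adjoint_inner_left]
        exact congrArg _ (T.apply_symm_apply u).symm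
      rw [e]
      refine (real_inner_le_norm _ _).trans ?_
      calc ‖f y‖ * ‖T.symm u‖ ≤ c * ‖T.symm u‖ := mul_le_mul_of_nonneg_right h (norm_nonneg _)
        _ = _ := by rw [hc]; ring
  rcases eq_or_ne c 0 with h0 | h0
  · refine ⟨0, Or.inr ?_⟩
    rw [hp, h0, closedBall_zero]
    ext y
    simp [map_eq_zero_iff f hinj]
  have hc0 : 0 < c := lt_of_le_of_ne (by positivity) (Ne.symm h0)
  refine ⟨c • (g : E 3 →ₗ[ℝ] E 3), Or.inl ⟨fun x y h => g.injective
    (smul_right_injective _ h0 h), ?_⟩⟩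
  rw [hp]
  ext y
  simp only [mem_preimage, mem_closedBall_zero_iff, mem_image, LinearMap.smul_apply,
    LinearEquiv.coe_coe]
  constructor
  · intro h
    refine ⟨c⁻¹ • f y, ?_, ?_⟩
    · rw [norm_smul, Real.norm_eq_abs, abs_of_pos (inv_pos.2 hc0), inv_mul_le_one₀ hc0]; exact h
    · rw [map_smul, smul_inv_smul₀ h0]
      exact (LinearEquiv.ofInjectiveEndo f hinj).symm_apply_apply y
  · rintro ⟨x, hx, rfl⟩
    rw [map_smul, show f (g x) = x from (LinearEquiv.ofInjectiveEndo f hinj).apply_symm_apply x,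
      norm_smul, Real.norm_eq_abs, abs_of_pos hc0]
    exact mul_le_of_le_one_right hc0.le hx

lemma rescale (ρ : ℝ → ℝ) {r : ℝ} (hr : 0 < r) :
    ∫ t in Icc (-r) r, ρ t = r * ∫ t in Icc (-1 : ℝ) 1, ρ (r * t) := by
  rw [integral_Icc_eq_integral_Ioc, ← intervalIntegral.integral_of_le (by linarith),
    integral_Icc_eq_integral_Ioc, ← intervalIntegral.integral_of_le (by norm_num),
    intervalIntegral.mul_integral_comp_mul_left]
  congr 1 <;> ring

/-- The core bound for a symmetric minimiser. -/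
lemma min_bound (hP : ProfileThree) {Z : Set (E 3)} (hZ : Cen Z)
    (hs : ∀ x ∈ Z, -x ∈ Z)
    (hmin : ∀ K : Set (E 3), Body K → (interior K).Nonempty → ratio Z ≤ ratio K) :
    3 * Real.pi ^ 2 / 4 ≤ ratio Z ∧ (ratio Z = 3 * Real.pi ^ 2 / 4 →
      ∃ (T : E 3 ≃L[ℝ] E 3) (r : ℝ), 0 < r ∧ Z = T '' closedBall 0 r) := by
  obtain ⟨T, ν, F, r, hLc, hLs, hr, hsupp, hball, hρ0, hvol, hconc, heven, hout, hge, hmom⟩ :=
    exists_profile (n := 2) two_pos hZ.toBody ⟨0, hZ.int⟩ hs
  set L := T '' Z with hL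
  set ρ := F.rad L with hρ
  have hratio : ratio L = ratio Z := ratio_image T hZ.toBody
  have hLmin : ∀ K : Set (E 3), Body K → (interior K).Nonempty → ratio L ≤ ratio K :=
    fun K h1 h2 => hratio ▸ hmin K h1 h2
  have hcl := symm_structure hLc hLs hLmin ν
  have hsh := shadow_three hLc.toBody ⟨0, hLc.int⟩ F
  set f : ℝ → ℝ := fun t => ρ (r * t) / r with hf
  have hmem : ∀ t ∈ Icc (-1 : ℝ) 1, r * t ∈ Icc (-r) r := fun t ht =>
    ⟨by nlinarith [ht.1], by nlinarith [ht.2]⟩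
  have fconc : ConcaveOn ℝ (Icc (-1) 1) f := by
    refine ⟨convex_Icc _ _, fun x hx y hy a b ha hb hab => ?_⟩
    have h := hconc.2 (hmem x hx) (hmem y hy) ha hb hab
    simp only [smul_eq_mul] at h ⊢
    simp only [hf, hρ]
    rw [show r * (a * x + b * y) = a * (r * x) + b * (r * y) by ring, mul_div_assoc', mul_div_assoc',
      ← add_div, div_le_div_iff_of_pos_right hr]
    exact h
  have fge : ∀ t ∈ Icc (-1 : ℝ) 1, √(1 - t ^ 2) ≤ f t := fun t ht => by
    simp only [hf, hρ]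
    rw [le_div_iff₀ hr]
    have h := hge (r * t) (abs_le.2 (hmem t ht))
    rwa [show r ^ 2 - (r * t) ^ 2 = (1 - t ^ 2) * r ^ 2 by ring, Real.sqrt_mul' _ (sq_nonneg r),
      Real.sqrt_sq hr.le] at h
  have i1 : ∫ t in Icc (-r) r, ρ t = r ^ 2 * ∫ t in Icc (-1 : ℝ) 1, f t := by
    rw [rescale ρ hr, ← integral_const_mul, ← integral_const_mul]
    congr 1; funext t; simp only [hf]; field_simp
  have i2 : ∫ t in Icc (-r) r, ρ t ^ 2 = r ^ 3 * ∫ t in Icc (-1 : ℝ) 1, f t ^ 2 := by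
    rw [rescale (fun t => ρ t ^ 2) hr, ← integral_const_mul, ← integral_const_mul]
    congr 1; funext t; simp only [hf]; field_simp
  have i4 : ∫ t in Icc (-r) r, ρ t ^ 4 = r ^ 5 * ∫ t in Icc (-1 : ℝ) 1, f t ^ 4 := by
    rw [rescale (fun t => ρ t ^ 4) hr, ← integral_const_mul, ← integral_const_mul]
    congr 1; funext t; simp only [hf]; field_simp
  have i22 : ∫ t in Icc (-r) r, t ^ 2 * ρ t ^ 2 =
      r ^ 5 * ∫ t in Icc (-1 : ℝ) 1, t ^ 2 * f t ^ 2 := by
    rw [rescale (fun t => t ^ 2 * ρ t ^ 2) hr, ← integral_const_mul, ← integral_const_mul]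
    congr 1; funext t; simp only [hf]; field_simp
  have fmom : ∫ t in Icc (-1 : ℝ) 1, f t ^ 4 ≤ 4 * ∫ t in Icc (-1 : ℝ) 1, t ^ 2 * f t ^ 2 := by
    have h : ∫ t in Icc (-r) r, ρ t ^ 4 ≤ 4 * ∫ t in Icc (-r) r, t ^ 2 * ρ t ^ 2 := by
      simpa [hρ, show (2 : ℝ) + 2 = 4 by norm_num] using hmom
    rw [i4, i22, mul_left_comm] at h
    exact le_of_mul_le_mul_left h (pow_pos hr 5)
  obtain ⟨hlem, hlemeq⟩ := hP f fconc (fun t => by simp only [hf, hρ, mul_neg]; exact congrArg (· / r) (heven (r * t))) fge fmom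
  set I := ∫ t in Icc (-1 : ℝ) 1, f t
  set J := ∫ t in Icc (-1 : ℝ) 1, f t ^ 2
  have hz : ∀ t, t ∉ Icc (-r) r → ρ t = 0 := fun t ht => hout t (by
    by_contra h; exact ht (abs_le.1 (not_lt.1 h)))
  have hV : (volume L).toReal = Real.pi * (r ^ 3 * J) := by
    rw [← (F.volume_slices L hLc.cpt).2, ← i2,
      setIntegral_eq_integral_of_forall_compl_eq_zero (fun t ht => by simp [hz t ht]),
      ← integral_const_mul]
    congr 1; funext t
    rw [hvol t, ballVol_two]
  have hS : ∫ t, √((volume (F.slice L t)).toReal) = √Real.pi * (r ^ 2 * I) := by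
    rw [← i1, setIntegral_eq_integral_of_forall_compl_eq_zero (fun t ht => hz t ht),
      ← integral_const_mul]
    congr 1; funext t
    rw [hvol t, ballVol_two, Real.sqrt_mul Real.pi_pos.le, Real.sqrt_sq (hρ0 t)]
  have hV0 : 0 < (volume L).toReal := ENNReal.toReal_pos (Measure.measure_pos_of_mem_nhds volume
    (mem_interior_iff_mem_nhds.1 hLc.int)).ne' hLc.cpt.measure_lt_top.ne
  have hJ : 0 < J := by
    rw [hV] at hV0
    by_contra h
    have : r ^ 3 * J ≤ 0 := mul_nonpos_of_nonneg_of_nonpos (by positivity) (not_lt.1 h)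
    nlinarith [Real.pi_pos]
  rw [hS, mul_pow, Real.sq_sqrt Real.pi_pos.le, hcl, hsupp] at hsh
  have key : 4 * I ^ 2 / J ≤ ratio L := by
    rw [ratio, show (3 - 1 : ℕ) = 2 from rfl, div_le_div_iff₀ hJ (pow_pos hV0 2)]
    rw [div_mul_eq_mul_div, le_div_iff₀ hV0] at hsh
    rw [hV] at hsh ⊢
    have : r * (4 * I ^ 2 * (Real.pi * (r ^ 3 * J)) ^ 2) ≤
        r * ((volume (projBody L)).toReal * J) := by
      calc r * (4 * I ^ 2 * (Real.pi * (r ^ 3 * J)) ^ 2)
          = 4 * (Real.pi * (r ^ 2 * I) ^ 2) * (Real.pi * (r ^ 3 * J)) * (r ^ 0 * J) * 1 := by ring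
        _ ≤ _ := by
          rw [mul_one, pow_zero, one_mul, ← mul_assoc r]
          exact mul_le_mul_of_nonneg_right (by linarith) hJ.le
    exact le_of_mul_le_mul_left this hr
  have key2 : 3 * Real.pi ^ 2 / 4 ≤ 4 * I ^ 2 / J := by
    rw [le_div_iff₀ hJ]; linarith
  refine ⟨hratio ▸ key2.trans key, fun heq => ?_⟩
  rw [hratio, heq] at key
  have hIJ : I ^ 2 = 3 * Real.pi ^ 2 / 16 * J := by
    have := le_antisymm key key2
    rw [div_eq_iff hJ.ne'] at this
    linarith
  have fle := hlemeq hIJ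
  have fend : ∀ t ∈ Icc (-1 : ℝ) 1, f t ≤ √(1 - t ^ 2) := by
    have h1 : f 1 ≤ 0 := by
      have hlim : Tendsto (fun ε : ℝ => √(1 - ε ^ 2) - (1 - ε) * f 0) (𝓝[<] 1) (𝓝 0) := by
        have : Continuous fun ε : ℝ => √(1 - ε ^ 2) - (1 - ε) * f 0 := by fun_prop
        simpa using (this.tendsto 1).mono_left nhdsWithin_le_nhds
      have hb : ∀ᶠ ε in 𝓝[<] (1 : ℝ), ε * f 1 ≤ √(1 - ε ^ 2) - (1 - ε) * f 0 := by
        filter_upwards [Ioo_mem_nhdsLT (show (0 : ℝ) < 1 by norm_num)] with ε hε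
        have h := fconc.2 (show (0 : ℝ) ∈ Icc (-1 : ℝ) 1 by norm_num)
          (show (1 : ℝ) ∈ Icc (-1 : ℝ) 1 by norm_num) (show 0 ≤ 1 - ε by linarith [hε.2]) hε.1.le
          (by ring)
        simp only [smul_eq_mul, mul_zero, zero_add, mul_one] at h
        linarith [fle ε ⟨by linarith [hε.1], hε.2⟩]
      have hl : Tendsto (fun ε : ℝ => ε * f 1) (𝓝[<] 1) (𝓝 (f 1)) := by
        have : Continuous fun ε : ℝ => ε * f 1 := by fun_prop
        simpa using (this.tendsto 1).mono_left nhdsWithin_le_nhds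
      exact le_of_tendsto_of_tendsto hl hlim hb
    intro t ht
    rcases eq_or_lt_of_le ht.1 with rfl | h
    · have e : f (-1) = f 1 := by
        simp only [hf, hρ, mul_neg]; exact congrArg (· / r) (heven (r * 1))
      rw [e]; simpa using h1
    rcases eq_or_lt_of_le ht.2 with rfl | h'
    · simpa using h1
    exact fle t ⟨h, h'⟩
  have hball' : L = closedBall 0 r := eq_ball_of_rad two_pos F hLc.toBody hr hball hout fun t ht => by
    have h := fend (t / r) ⟨by rw [le_div_iff₀ hr]; linarith [(abs_le.1 ht).1],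
      by rw [div_le_one hr]; exact (abs_le.1 ht).2⟩
    simp only [hf, hρ, mul_div_cancel₀ _ hr.ne'] at h
    rw [div_le_iff₀ hr, show 1 - (t / r) ^ 2 = (r ^ 2 - t ^ 2) / r ^ 2 by field_simp,
      Real.sqrt_div' _ (sq_nonneg r), Real.sqrt_sq hr.le, div_mul_cancel₀ _ hr.ne'] at h
    exact h
  refine ⟨T.symm, r, hr, ?_⟩
  rw [← hball', hL, image_image]
  simp

lemma projBody_neg {N : ℕ} (K : Set (E N)) : ∀ x ∈ projBody K, -x ∈ projBody K := fun x hx u => by
  rw [inner_neg_left, ← inner_neg_right]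
  exact (hx (-u)).trans_eq (projVol_neg K u)

lemma projBody_cen {n : ℕ} {K : Set (E (n + 1))} (hK : Body K) (hi : (interior K).Nonempty) :
    Cen (projBody K) :=
  (sublin_projVol hK hi).cen

/-- **Petty's inequality in space, from the profile lemma.** -/
theorem petty_three_of (hP : ProfileThree) {K : Set (E 3)} (hK : Body K)
    (hi : (interior K).Nonempty) :
    3 * Real.pi ^ 2 / 4 ≤ ratio K ∧ (ratio K = 3 * Real.pi ^ 2 / 4 ↔
      ∃ (a : E 3) (S : E 3 →ₗ[ℝ] E 3), Function.Injective S ∧ K = a +ᵥ S '' closedBall 0 1) := by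
  obtain ⟨Z₀, hZ₀, hmin₀⟩ := exists_minimiser 2
  have hbound : ∀ M : Set (E 3), Body M → (interior M).Nonempty →
      3 * Real.pi ^ 2 / 4 ≤ ratio M := fun M hM hMi => by
    have hc := projBody_cen hZ₀.toBody ⟨0, hZ₀.int⟩
    have h := (proj_step hZ₀.toBody ⟨0, hZ₀.int⟩).1
    refine ((min_bound hP hc (projBody_neg _) fun N hN hNi => h.trans (hmin₀ N hN hNi)).1.trans
      h).trans (hmin₀ M hM hMi)
  refine ⟨hbound K hK hi, fun heq => ?_, ?_⟩
  · obtain ⟨hle, hback⟩ := proj_step hK hi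
    have hc := projBody_cen hK hi
    have he : ratio (projBody K) = ratio K :=
      le_antisymm hle (heq ▸ hbound _ hc.toBody ⟨0, hc.int⟩)
    obtain ⟨T, r, hr, hTr⟩ := (min_bound hP hc (projBody_neg _) fun N hN hNi => by
      rw [he, heq]; exact hbound N hN hNi).2 (he.trans heq)
    obtain ⟨a, s, hKe⟩ := hback he
    obtain ⟨S, ⟨hS, hSe⟩ | hSe⟩ := projBody_image T hr.le
    · rw [hTr, hSe] at hKe
      have hs : s ≠ 0 := by
        rintro rfl
        rw [zero_smul_set ⟨_, mem_image_of_mem _ (mem_closedBall_self zero_le_one)⟩] at hKe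
        rw [← singleton_zero, vadd_set_singleton, vadd_eq_add, add_zero] at hKe
        obtain ⟨y, hy⟩ := hi
        have hb := (isOpen_interior.measure_pos volume ⟨y, hy⟩)
        have : volume (interior K) ≤ volume ({a} : Set (E 3)) :=
          measure_mono (interior_subset.trans hKe.subset)
        rw [measure_singleton] at this
        exact hb.ne' (le_antisymm this zero_le)
      refine ⟨a, s • S, fun x y h => hS (smul_right_injective _ hs h), hKe.trans ?_⟩
      rw [← image_smul, image_image]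
      rfl
    · rw [hTr, hSe] at hKe
      exfalso
      obtain ⟨y, hy⟩ := hi
      have hb := (isOpen_interior.measure_pos volume ⟨y, hy⟩)
      have : volume (interior K) ≤ volume ({a + s • (0 : E 3)} : Set (E 3)) :=
        measure_mono (interior_subset.trans (by rw [hKe, smul_set_singleton, vadd_set_singleton]; rfl))
      rw [measure_singleton] at this
      exact hb.ne' (le_antisymm this zero_le)
  · rintro ⟨a, S, hS, rfl⟩
    set T := (LinearEquiv.ofInjectiveEndo S hS).toContinuousLinearEquiv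
    have e : S '' closedBall (0 : E 3) 1 = T '' closedBall 0 1 := rfl
    have hb : Body (T '' closedBall (0 : E 3) 1) :=
      ⟨(convex_closedBall _ _).linear_image (T.toLinearEquiv : E 3 →ₗ[ℝ] E 3),
        (isCompact_closedBall _ _).image T.continuous⟩
    rw [e, ratio_vadd hb,
      ratio_image T ⟨convex_closedBall _ _, isCompact_closedBall _ _⟩, ratio_ball one_pos]

end Vale.Agent.P237.Full
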